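import Vale.Agent.P273.H837.Strata

/-!
Normalisation data of a family over the image of an analytic map into its base, and the morphism
between two families with the same normalisation data.
-/

noncomputable section

namespace Vale.Agent.P273.H395

open Set Sum Filter H183 H837
open scoped Topology

variable {L V E : Type} {m m' : ℕ}

/-- `g` is the normalisation of the pullback of the family `C` by `φ : U → C.B`: the fibre of `C`
over `φ b` is obtained from projective lines, one for each vertex in `V`, by gluing them at the two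
half-edges of each edge; `z y b` is the position of the half-edge or leg `y`, and `g v w b` is the
point with coordinate `w` of the line of `v`. -/
structure Norm (C : Fam L m) (U : Set (Fin m' → ℂ)) (φ : (Fin m' → ℂ) → Fin m → ℂ)
    (h : (E × Bool) ⊕ L → V) (z : (E × Bool) ⊕ L → (Fin m' → ℂ) → OnePoint ℂ)
    (g : V → OnePoint ℂ → (Fin m' → ℂ) → C.X) : Prop where
  an : ∀ b ∈ U, AnalyticAt ℂ φ b
  mem : ∀ b ∈ U, φ b ∈ C.B
  cont : ∀ v, ContinuousOn (fun u : OnePoint ℂ × (Fin m' → ℂ) => g v u.1 u.2) (univ ×ˢ U)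
  proj : ∀ b ∈ U, ∀ v w, C.π (g v w b) = φ b
  onto : ∀ b ∈ U, ∀ p ∈ C.fib (φ b), ∃ v w, g v w b = p
  ident : ∀ b ∈ U, ∀ v w v' w', g v w b = g v' w' b ↔ v = v' ∧ w = w' ∨ ∃ (e : E) (s : Bool),
    (v = h (inl (e, s)) ∧ w = z (inl (e, s)) b) ∧ v' = h (inl (e, !s)) ∧ w' = z (inl (e, !s)) b
  hol : ∀ b ∈ U, ∀ v w f, C.hol f (g v w b) → Hol1 (fun w b => f (g v w b)) w b
  mark : ∀ b ∈ U, ∀ x, C.s x (φ b) = g (h (inr x)) (z (inr x) b) b

/-- The strong form of the normalisation (of the family `T` itself): the holomorphic functions of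
`T` are exactly the functions that are holomorphic on the normalisation. -/
def StrongHol (T : Fam L m') (g : V → OnePoint ℂ → (Fin m' → ℂ) → T.X) : Prop :=
  ∀ (p : T.X) (F : T.X → ℂ),
    (∀ v w, g v w (T.π p) = p → Hol1 (fun w b => F (g v w b)) w (T.π p)) → T.hol F p

/-- A glued family has normalisation data. -/
theorem Norm.of_isGlued {h : (E × Bool) ⊕ L → V} {c : Coord h m} {C : Fam L m}
    (hC : c.IsGlued C) : ∃ g, Norm C c.base id h (fun y b => pt b (c.c y)) g := by
  obtain ⟨hB, g, h1, h2, h3⟩ := hC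
  refine ⟨g, fun b _ => analyticAt_id, fun b hb => hB ▸ hb, h1, fun b hb => (h3 b hb).1, ?_,
    fun b hb => (h3 b hb).2.1, fun b hb => (h3 b hb).2.2.1, fun b hb => (h3 b hb).2.2.2⟩
  intro b hb p hp
  have hp' : C.π p = b := hp
  obtain ⟨v, z, hz⟩ := h2 p (by rw [mem_preimage, hp']; exact hb)
  exact ⟨v, z, by rw [← hp', hz]⟩

/-- **Two families with the same normalisation data.** If `T` is a family over `U` with the
normalisation `gT` (in the strong form) and the pullback of `C` by `φ` has the normalisation `gC`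
with the same positions, then `gT v w b ↦ gC v w b` is a morphism of families. -/
theorem exists_mor [Finite V] {C : Fam L m} {T : Fam L m'} {φ : (Fin m' → ℂ) → Fin m → ℂ}
    {h : (E × Bool) ⊕ L → V} {z : (E × Bool) ⊕ L → (Fin m' → ℂ) → OnePoint ℂ}
    {gT : V → OnePoint ℂ → (Fin m' → ℂ) → T.X} {gC : V → OnePoint ℂ → (Fin m' → ℂ) → C.X}
    (hU : IsOpen T.B) (hT2 : T2Space T.X) (hTπ : ∀ p, T.π p ∈ T.B) (hTc : Continuous T.π)
    (hT : Norm T T.B id h z gT) (hC : Norm C T.B φ h z gC) (hs : StrongHol T gT) :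
    ∃ Φ : T.X → C.X, IsMor T C φ Φ ∧ ∀ v w, ∀ b ∈ T.B, Φ (gT v w b) = gC v w b := by
  classical
  have hex : ∀ p : T.X, ∃ vw : V × OnePoint ℂ, gT vw.1 vw.2 (T.π p) = p := by
    intro p
    obtain ⟨v, w, e⟩ := hT.onto (T.π p) (hTπ p) p rfl
    exact ⟨(v, w), e⟩
  choose σ hσ using hex
  set Φ : T.X → C.X := fun p => gC (σ p).1 (σ p).2 (T.π p) with hΦ
  have key : ∀ v w, ∀ b ∈ T.B, Φ (gT v w b) = gC v w b := by
    intro v w b hb
    have hπ : T.π (gT v w b) = b := hT.proj b hb v w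
    have h1 : gT (σ (gT v w b)).1 (σ (gT v w b)).2 b = gT v w b := by
      have := hσ (gT v w b)
      rwa [hπ] at this
    have h2 := (hT.ident b hb _ _ _ _).1 h1
    have h3 := (hC.ident b hb _ _ _ _).2 h2
    rw [hΦ]
    simpa only [hπ] using h3
  refine ⟨Φ, ⟨fun b hb => ⟨hC.mem b hb, hC.an b hb, ⟨?_, ?_, ?_⟩, fun i => ?_⟩, ?_, ?_⟩, key⟩
  · intro p hp
    have hp' : T.π p = b := hp
    change C.π (Φ p) = φ b
    rw [← hp']
    exact hC.proj _ (hTπ p) _ _
  · intro p hp q hq e
    have hp' : T.π p = b := hp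
    have hq' : T.π q = b := hq
    obtain ⟨v, w, hv⟩ := hT.onto b hb p hp
    obtain ⟨v', w', hv'⟩ := hT.onto b hb q hq
    rw [← hv, ← hv'] at e ⊢
    rw [key v w b hb, key v' w' b hb] at e
    exact (hT.ident b hb _ _ _ _).2 ((hC.ident b hb _ _ _ _).1 e)
  · intro p hp
    obtain ⟨v, w, e⟩ := hC.onto b hb p hp
    exact ⟨gT v w b, hT.proj b hb v w, by rw [key v w b hb, e]⟩
  · have := hT.mark b hb i
    rw [id] at this
    rw [this, key _ _ b hb, ← hC.mark b hb i]
  · rw [continuous_iff_continuousAt]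
    intro p
    obtain ⟨K, hKp, hKU, hKc⟩ := local_compact_nhds (x := T.π p) (hU.mem_nhds (hTπ p))
    have : CompactSpace K := isCompact_iff_compactSpace.1 hKc
    set Y : Set T.X := T.π ⁻¹' K with hY
    let q : (Σ _ : V, OnePoint ℂ × K) → Y := fun x =>
      ⟨gT x.1 x.2.1 x.2.2, by
        change T.π _ ∈ K
        rw [hT.proj _ (hKU x.2.2.2)]
        exact x.2.2.2⟩
    have hq : Continuous q := by
      refine Continuous.subtype_mk ?_ _
      rw [continuous_sigma_iff]
      intro v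
      have := hT.cont v
      exact this.comp_continuous
        (continuous_fst.prodMk (continuous_subtype_val.comp continuous_snd))
        (fun x => ⟨mem_univ _, hKU x.2.2⟩)
    have hqs : Function.Surjective q := by
      rintro ⟨y, hy⟩
      refine ⟨⟨(σ y).1, (σ y).2, ⟨T.π y, hy⟩⟩, Subtype.ext (hσ y)⟩
    have hqq : Topology.IsQuotientMap q := hq.isClosedMap.isQuotientMap hq hqs
    have hΦY : Continuous (fun y : Y => Φ y) := by
      rw [hqq.continuous_iff]
      have e : ((fun y : Y => Φ y) ∘ q) = fun x => gC x.1 x.2.1 x.2.2 := by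
        funext x
        exact key _ _ _ (hKU x.2.2.2)
      rw [e, continuous_sigma_iff]
      intro v
      exact (hC.cont v).comp_continuous
        (continuous_fst.prodMk (continuous_subtype_val.comp continuous_snd))
        (fun x => ⟨mem_univ _, hKU x.2.2⟩)
    have hYn : Y ∈ 𝓝 p := hTc.continuousAt hKp
    exact (continuousOn_iff_continuous_domRestrict.2 hΦY).continuousAt hYn
  · intro f p hf
    refine hs p (fun q => f (Φ q)) fun v w e => ?_
    have hb := hTπ p
    have h1 : C.hol f (gC v w (T.π p)) := by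
      rw [← key v w _ hb, e]
      exact hf
    have h2 := hC.hol _ hb v w f h1
    refine ⟨fun w' hw' => ?_, fun hw => ?_⟩
    · refine (h2.1 w' hw').congr ?_
      have : ∀ᶠ u : ℂ × (Fin m' → ℂ) in 𝓝 (w', T.π p), u.2 ∈ T.B :=
        continuousAt_snd.eventually (hU.mem_nhds hb)
      filter_upwards [this] with u hu
      rw [key v _ _ hu]
    · refine (h2.2 hw).congr ?_
      have : ∀ᶠ u : ℂ × (Fin m' → ℂ) in 𝓝 ((0 : ℂ), T.π p), u.2 ∈ T.B :=
        continuousAt_snd.eventually (hU.mem_nhds hb)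
      filter_upwards [this] with u hu
      rw [key v _ _ hu]

/-- The projection of a stable family is continuous: it is so in every chart. -/
theorem continuous_pi_of_isChart {X : Type} [TopologicalSpace X] {π : X → Fin m → ℂ}
    {hol : (X → ℂ) → X → Prop}
    (h : ∀ p, ∃ U x y t, p ∈ U ∧ IsChart π hol U x y t) : Continuous π := by
  rw [continuous_iff_continuousAt]
  intro p
  obtain ⟨U, x, y, t, hp, hU, -, hinj, hop, -⟩ := h p
  rw [ContinuousAt, tendsto_nhds]
  intro O hO hpO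
  obtain ⟨W, hW, e⟩ := (hop U subset_rfl).1 hU
  have h1 : IsOpen (U ∩ π ⁻¹' O) := by
    refine (hop _ inter_subset_left).2 ⟨W ∩ (Prod.fst ⁻¹' O), hW.inter
      (hO.preimage continuous_fst), ?_⟩
    ext u
    constructor
    · rintro ⟨q, ⟨hq, hqO⟩, rfl⟩
      have : (π q, x q, y q) ∈ {w ∈ W | w.2.1 * w.2.2 = t w.1} := e ▸ mem_image_of_mem _ hq
      exact ⟨⟨this.1, hqO⟩, this.2⟩
    · rintro ⟨⟨huW, huO⟩, hut⟩
      have : u ∈ (fun p => (π p, x p, y p)) '' U := by rw [e]; exact ⟨huW, hut⟩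
      obtain ⟨q, hq, rfl⟩ := this
      exact ⟨q, ⟨hq, huO⟩, rfl⟩
  exact mem_of_superset (h1.mem_nhds ⟨hp, hpO⟩) inter_subset_right

/-- **The value of a natural form on `T` is the pullback of its value on `C`.** -/
theorem eq_pullback [Finite V] {k : ℕ} {C : Fam L m} {T : Fam L m'}
    {φ : (Fin m' → ℂ) → Fin m → ℂ} {h : (E × Bool) ⊕ L → V}
    {z : (E × Bool) ⊕ L → (Fin m' → ℂ) → OnePoint ℂ}
    {gT : V → OnePoint ℂ → (Fin m' → ℂ) → T.X} {gC : V → OnePoint ℂ → (Fin m' → ℂ) → C.X}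
    (hTs : T.IsStable) (hCs : C.IsStable)
    (hT : Norm T T.B id h z gT) (hC : Norm C T.B φ h z gC) (hs : StrongHol T gT)
    {F : ∀ m, Fam L m → (Fin m → ℂ) → (Fin m → ℂ) [⋀^Fin k]→L[ℝ] ℝ} (hF : IsClosedForm L k F) :
    ∀ b ∈ T.B, F m' T b = (F m C (φ b)).compContinuousLinearMap (fderiv ℝ φ b) := by
  obtain ⟨Φ, hΦ, -⟩ := exists_mor hTs.1 hTs.2.1 hTs.2.2.1
    (continuous_pi_of_isChart hTs.2.2.2.2.1) hT hC hs
  exact hF.2 m m' C T φ Φ hCs hTs hΦ

end Vale.Agent.P273.H395

end
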