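import Vale.Agent.P273.H395.Comp2
import Vale.Agent.P273.H450.Plug
import Vale.Agent.P273.H888.Inst

/-!
The walls of the closed forms, from the start of the insertion process.
-/

noncomputable section

namespace Vale.Agent.P273.H395

open Set Filter Topology H95 H183 H837 H228 H728 H680 H724
open scoped Topology

/-- The families near the strata of the regions. -/
theorem ofAt_of_start {F : H503.Form16} (hF : IsClosedForm L 16 F) (hst : StartEx) :
    H450.OfAt F (H888.FS F) :=
  ofAt_of hF (fun _ _ _ _ hC => H450.locFam_of_real
    (fun _ _ _ _ _ _ _ _ _ _ _ hR _ hp hd => H888.FS_eq H888.a1 hF hR hp hd) hC)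
    (finEx_of_start hst)

/-- **Every closed form on the families has a wall.** -/
theorem extAll_of_start (hst : StartEx) :
    ∀ F : H503.Form16, IsClosedForm H503.Lg14 (8 * 2) F → ∃ X : Ext, H728.ExtOf F X :=
  H450.extAll_of1 H888.FS (fun _ => H888.intLoc) (fun _ => H888.intChg) (fun _ => H888.regLoc')
    (fun _ => H888.regLoc1) fun _ hF => ofAt_of_start hF hst

end Vale.Agent.P273.H395

end
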