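import Vale.Agent.P273.H948.Surgery
import Vale.Agent.P273.H837.Strata

/-!
Normalisation data of a nodal surface over the image of an analytic map into the base, and its
inheritance under the insertion of a projective line at a node.
-/

noncomputable section

namespace Vale.Agent.P273.H395

open Set Filter Topology H948 H837 H183

variable {V E : Type} {m m' : ℕ}

/-- `g` is the normalisation of the pullback of the surface `S` by `φ` (over the open set `U`):
`z y b` is the position of the half-edge `y`, and `g v w b` is the point with coordinate `w` of the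
projective line of the vertex `v`. -/
structure NormS (S : Surf m) (U : Set (Fin m' → ℂ)) (φ : (Fin m' → ℂ) → Fin m → ℂ)
    (h : E × Bool → V) (z : E × Bool → (Fin m' → ℂ) → OnePoint ℂ)
    (g : V → OnePoint ℂ → (Fin m' → ℂ) → S.X) : Prop where
  sep : ∀ b ∈ U, ∀ y y', h y = h y' → z y b = z y' b → y = y'
  zc : ∀ y, ContinuousOn (z y) U
  cont : ∀ v, ContinuousOn (fun u : OnePoint ℂ × (Fin m' → ℂ) => g v u.1 u.2) (univ ×ˢ U)
  proj : ∀ b ∈ U, ∀ v w, S.π (g v w b) = φ b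
  onto : ∀ b ∈ U, ∀ p, S.π p = φ b → ∃ v w, g v w b = p
  ident : ∀ b ∈ U, ∀ v w v' w', g v w b = g v' w' b ↔ v = v' ∧ w = w' ∨ ∃ (e : E) (s : Bool),
    (v = h (e, s) ∧ w = z (e, s) b) ∧ v' = h (e, !s) ∧ w' = z (e, !s) b
  hol : ∀ b ∈ U, ∀ v w f, S.hol (g v w b) f → Hol1 (fun w b => f (g v w b)) w b

/-- The two branches at the node of the edge `e`: the branch of the half-edge `(e, true)` is in
`v = 0` and the other one is in `u = 0`. -/
def Br {X : Type} (U : Set (Fin m' → ℂ)) (h : E × Bool → V)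
    (z : E × Bool → (Fin m' → ℂ) → OnePoint ℂ) (g : V → OnePoint ℂ → (Fin m' → ℂ) → X)
    (e : E) (u v : X → ℂ) : Prop :=
  ∀ b₀ ∈ U, (∀ᶠ p : OnePoint ℂ × (Fin m' → ℂ) in 𝓝 (z (e, true) b₀, b₀),
      v (g (h (e, true)) p.1 p.2) = 0) ∧
    ∀ᶠ p : OnePoint ℂ × (Fin m' → ℂ) in 𝓝 (z (e, false) b₀, b₀),
      u (g (h (e, false)) p.1 p.2) = 0

/-- `N'` is the surface in which a projective line with the coordinate `a` (with values `af` and
inverse values `ai`) is inserted in the model `(Uc, u, v)` with `u v = τ₀ τ₁`: the equations are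
`u = τ₀ a`, `a v = τ₁`. -/
structure NodeMod {S N' : Surf m} (M : Modif S N') (Uc : Set S.X) (u v : S.X → ℂ)
    (τ₀ τ₁ : (Fin m → ℂ) → ℂ) (a : N'.X → OnePoint ℂ) (af ai : N'.X → ℂ) : Prop where
  Z_eq : M.Z = {x | x ∈ Uc ∧ u x = 0 ∧ v x = 0 ∧ τ₀ (S.π x) = 0 ∧ τ₁ (S.π x) = 0}
  N_eq : M.N = Uc
  af_eq : ∀ y (c : ℂ), a y = (c : OnePoint ℂ) → af y = c
  ai_eq : ∀ y c, a y = inf c → ai y = c
  emb : IsEmbedding fun y => (M.ρ y, a y)
  ex : ∀ x ∈ Uc, ∀ w : OnePoint ℂ,
    (∀ c : ℂ, w = (c : OnePoint ℂ) → u x = τ₀ (S.π x) * c ∧ c * v x = τ₁ (S.π x)) →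
    (∀ c : ℂ, w = inf c → c * u x = τ₀ (S.π x) ∧ v x = τ₁ (S.π x) * c) →
    ∃ y, M.ρ y = x ∧ a y = w
  m0 : IsModel N'.π N'.hol {y | a y ≠ OnePoint.infty} af (fun y => v (M.ρ y)) τ₁
  m1 : IsModel N'.π N'.hol {y | a y ≠ ((0 : ℂ) : OnePoint ℂ)} (fun y => u (M.ρ y)) ai τ₀

/-- The graph after the insertion at the edge `e₀`. -/
def hI [DecidableEq E] (h : E × Bool → V) (e₀ : E) : Option E × Bool → Option V
  | (some e, s) => if e = e₀ ∧ s = false then none else some (h (e, s))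
  | (none, true) => none
  | (none, false) => some (h (e₀, false))

/-- The positions after the insertion at the edge `e₀`. -/
def zI [DecidableEq E] (z : E × Bool → (Fin m' → ℂ) → OnePoint ℂ) (e₀ : E) :
    Option E × Bool → (Fin m' → ℂ) → OnePoint ℂ
  | (some e, s) => if e = e₀ ∧ s = false then fun _ => OnePoint.infty else z (e, s)
  | (none, true) => fun _ => ((0 : ℂ) : OnePoint ℂ)
  | (none, false) => z (e₀, false)

theorem inf_ne_zero (c : ℂ) : inf c ≠ ((0 : ℂ) : OnePoint ℂ) := by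
  unfold inf
  split_ifs with hc
  · exact OnePoint.infty_ne_coe 0
  · intro e
    exact inv_ne_zero hc (OnePoint.coe_injective e)

theorem inf_eq_infty {c : ℂ} (h : inf c = OnePoint.infty) : c = 0 := by
  unfold inf at h
  split_ifs at h with hc
  · exact hc
  · exact absurd h (OnePoint.coe_ne_infty _)

theorem inf_zero : inf 0 = OnePoint.infty := by simp [inf]

namespace NodeMod

variable {S N' : Surf m} {M : Modif S N'} {Uc : Set S.X} {u v : S.X → ℂ}
  {τ₀ τ₁ : (Fin m → ℂ) → ℂ} {a : N'.X → OnePoint ℂ} {af ai : N'.X → ℂ}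

theorem cont_a (H : NodeMod M Uc u v τ₀ τ₁ a af ai) : Continuous a :=
  continuous_snd.comp H.emb.continuous

theorem ext (H : NodeMod M Uc u v τ₀ τ₁ a af ai) {y y' : N'.X} (h1 : M.ρ y = M.ρ y')
    (h2 : a y = a y') : y = y' := H.emb.injective (Prod.ext h1 h2)

end NodeMod

section

variable {S N' : Surf m} {M : Modif S N'}

/-- A point of `S` outside the centre. -/
def toA (M : Modif S N') (x : S.X) (hx : x ∉ M.Z) : M.A.X :=
  Surf.toSub M.closed.isOpen_compl x hx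

theorem incA_toA (x : S.X) (hx : x ∉ M.Z) : M.incA (toA M x hx) = x := rfl

theorem toA_incA (q : M.A.X) (hx : M.incA q ∉ M.Z) : toA M (M.incA q) hx = q :=
  M.incA_emb.injective rfl

theorem rA_toA {x : S.X} (hx : x ∉ M.Z) : M.r (M.ιA (toA M x hx)) = x := M.rA _

theorem eq_ιA {p : M.T.X} {x : S.X} (hp : M.r p = x) (hx : x ∉ M.Z) :
    p = M.ιA (toA M x hx) := by
  obtain ⟨a, rfl⟩ := M.mem_rangeA.2 (by rw [hp]; exact hx)
  have : M.incA a = x := by rw [← M.rA]; exact hp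
  exact congrArg M.ιA (M.incA_emb.injective this)

/-- A function that is holomorphic on the modification at a point outside the centre comes from a
function that is holomorphic on `S`. -/
theorem hol_of_holA {x : S.X} (hx : x ∉ M.Z) {f : M.T.X → ℂ}
    (hf : M.T.hol (M.ιA (toA M x hx)) f) :
    ∃ f', S.hol x f' ∧ ∀ᶠ x' in 𝓝 x, ∀ hx' : x' ∉ M.Z, f (M.ιA (toA M x' hx')) = f' x' := by
  rw [M.holA, M.holA'] at hf
  obtain ⟨f', hf', e⟩ := hf
  refine ⟨f', hf', ?_⟩
  have h1 : 𝓝 x = map M.incA (𝓝 (toA M x hx)) := (M.incA_emb.map_nhds_eq (toA M x hx)).symm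
  rw [h1, eventually_map]
  filter_upwards [e] with q hq hx'
  rw [toA_incA]
  exact hq

end

theorem continuous_inf : Continuous inf := by
  rw [continuous_iff_continuousAt]
  intro c
  by_cases hc : c = 0
  · subst hc
    rw [continuousAt_iff_punctured_nhds, inf_zero]
    have h1 : Tendsto (fun c : ℂ => ((c⁻¹ : ℂ) : OnePoint ℂ)) (𝓝[≠] 0) (𝓝 OnePoint.infty) := by
      refine Tendsto.comp (g := ((↑) : ℂ → OnePoint ℂ)) (y := Bornology.cobounded ℂ) ?_
        tendsto_inv₀_nhdsNE_zero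
      rw [Metric.cobounded_eq_cocompact, ← coclosedCompact_eq_cocompact]
      exact OnePoint.tendsto_coe_infty
    refine h1.congr' ?_
    filter_upwards [self_mem_nhdsWithin] with x hx
    exact (if_neg hx).symm
  · have h1 : ContinuousAt (fun c : ℂ => ((c⁻¹ : ℂ) : OnePoint ℂ)) c :=
      OnePoint.continuous_coe.continuousAt.comp (continuousAt_inv₀ hc)
    refine h1.congr ?_
    filter_upwards [isOpen_ne.mem_nhds hc] with x hx
    exact (if_neg hx).symm

theorem hol1_congr {F G : OnePoint ℂ → (Fin m → ℂ) → ℂ} {w : OnePoint ℂ} {b : Fin m → ℂ}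
    (hF : Hol1 F w b) (e : ∀ᶠ p : OnePoint ℂ × (Fin m → ℂ) in 𝓝 (w, b), F p.1 p.2 = G p.1 p.2) :
    Hol1 G w b := by
  refine ⟨fun c hc => (hF.1 c hc).congr ?_, fun hw => (hF.2 hw).congr ?_⟩
  · subst hc
    have h1 : ContinuousAt (fun u : ℂ × (Fin m → ℂ) => ((u.1 : OnePoint ℂ), u.2)) (c, b) :=
      (OnePoint.continuous_coe.continuousAt.comp continuousAt_fst).prodMk continuousAt_snd
    exact h1.eventually e
  · subst hw
    have h1 : ContinuousAt (fun u : ℂ × (Fin m → ℂ) => (inf u.1, u.2)) (0, b) :=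
      (continuous_inf.continuousAt.comp continuousAt_fst).prodMk continuousAt_snd
    rw [ContinuousAt, inf_zero] at h1
    exact h1.eventually e

theorem hol1_comp {k : Amb m' → ℂ} {φ : (Fin m → ℂ) → Fin m' → ℂ}
    {A B : OnePoint ℂ → (Fin m → ℂ) → ℂ} {w : OnePoint ℂ} {b : Fin m → ℂ}
    (hk : AnalyticAt ℂ k (φ b, A w b, B w b)) (hφ : AnalyticAt ℂ φ b) (hA : Hol1 A w b)
    (hB : Hol1 B w b) : Hol1 (fun w b => k (φ b, A w b, B w b)) w b := by
  refine ⟨fun c hc => ?_, fun hw => ?_⟩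
  · subst hc
    exact AnalyticAt.comp (g := k) (f := fun u : ℂ × (Fin m → ℂ) => (φ u.2, A u.1 u.2, B u.1 u.2))
      (x := (c, b)) hk ((AnalyticAt.comp (g := φ) (x := (c, b)) hφ analyticAt_snd).prod
        ((hA.1 c rfl).prod (hB.1 c rfl)))
  · subst hw
    refine AnalyticAt.comp (g := k)
      (f := fun u : ℂ × (Fin m → ℂ) => (φ u.2, A (inf u.1) u.2, B (inf u.1) u.2))
      (x := (0, b)) ?_ ((AnalyticAt.comp (g := φ) (x := ((0 : ℂ), b)) hφ analyticAt_snd).prod
        ((hA.2 rfl).prod (hB.2 rfl)))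
    simp only [inf_zero]
    exact hk

theorem hol1_const (c : ℂ) (w : OnePoint ℂ) (b : Fin m → ℂ) :
    Hol1 (fun _ _ => c) w b := ⟨fun _ _ => analyticAt_const, fun _ => analyticAt_const⟩

theorem tendsto_of_r {S N' : Surf m} {M : Modif S N'} {Y : Type*} {l : Filter Y}
    {f : Y → M.T.X} {x : S.X} (hx : x ∉ M.Z) (hf : Tendsto (fun y => M.r (f y)) l (𝓝 x)) :
    Tendsto f l (𝓝 (M.ιA (toA M x hx))) := by
  rw [← M.embA.map_nhds_eq]
  intro O hO
  have hO' : M.ιA ⁻¹' O ∈ 𝓝 (toA M x hx) := hO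
  have h1 : M.incA '' (M.ιA ⁻¹' O) ∈ 𝓝 x := by
    have : 𝓝 x = map M.incA (𝓝 (toA M x hx)) := (M.incA_emb.map_nhds_eq (toA M x hx)).symm
    rw [this]
    exact image_mem_map hO'
  refine mem_map.2 ?_
  filter_upwards [mem_map.1 (hf h1)] with y hy
  obtain ⟨q, hq, e⟩ := hy
  have h2 : M.incA q ∉ M.Z := M.incA_not_mem q
  have h3 := eq_ιA (p := f y) e.symm h2
  rw [toA_incA] at h3
  change f y ∈ O
  rw [h3]
  exact hq

theorem tendsto_nhds_ne {X Y : Type*} [TopologicalSpace X] [TopologicalSpace Y] [T2Space X]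
    {f : X × Y → X} {p₀ : X × Y} (hf : ContinuousAt f p₀) (hne : p₀.1 ≠ f p₀) :
    ∀ᶠ p in 𝓝 p₀, p.1 ≠ f p := by
  have h1 : ContinuousAt (fun p : X × Y => (p.1, f p)) p₀ := continuousAt_fst.prodMk hf
  have h2 : {q : X × X | q.1 ≠ q.2} ∈ 𝓝 ((p₀.1, f p₀) : X × X) :=
    (isClosed_diagonal.isOpen_compl).mem_nhds hne
  exact h1.eventually h2

/-- **Insertion of a projective line at a node.** -/
theorem NormS.insert [DecidableEq E] {S N' : Surf m} {M : Modif S N'} {Uc : Set S.X}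
    {u v : S.X → ℂ} {t τ₀ τ₁ : (Fin m → ℂ) → ℂ} {a : N'.X → OnePoint ℂ} {af ai : N'.X → ℂ}
    (H : NodeMod M Uc u v τ₀ τ₁ a af ai) (hS : IsModel S.π S.hol Uc u v t)
    {U : Set (Fin m' → ℂ)} {φ : (Fin m' → ℂ) → Fin m → ℂ} {h : E × Bool → V}
    {z : E × Bool → (Fin m' → ℂ) → OnePoint ℂ} {g : V → OnePoint ℂ → (Fin m' → ℂ) → S.X}
    (G : NormS S U φ h z g) (hU : IsOpen U) (hne : U.Nonempty)
    (hφ : ∀ b ∈ U, AnalyticAt ℂ φ b) (e₀ : E)
    (hn : ∀ b ∈ U, g (h (e₀, true)) (z (e₀, true) b) b ∈ Uc ∧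
      u (g (h (e₀, true)) (z (e₀, true) b) b) = 0 ∧ v (g (h (e₀, true)) (z (e₀, true) b) b) = 0)
    (hτ : ∀ b ∈ U, τ₀ (φ b) = 0 ∧ τ₁ (φ b) = 0) (hB : Br U h z g e₀ u v) :
    ∃ g' : Option V → OnePoint ℂ → (Fin m' → ℂ) → M.T.X,
      NormS M.T U φ (hI h e₀) (zI z e₀) g' ∧
      (∀ b ∈ U, ∀ w, ∃ y, g' none w b = M.ιN y ∧
        M.ρ y = g (h (e₀, true)) (z (e₀, true) b) b ∧ a y = w) ∧
      (∀ b ∈ U, ∀ v w, M.r (g' (some v) w b) = g v w b) ∧
      (∀ b₀ ∈ U, ∀ᶠ p : OnePoint ℂ × (Fin m' → ℂ) in 𝓝 (z (e₀, true) b₀, b₀),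
        ∃ y, g' (some (h (e₀, true))) p.1 p.2 = M.ιN y ∧ a y = OnePoint.infty) ∧
      ∀ b₀ ∈ U, ∀ᶠ p : OnePoint ℂ × (Fin m' → ℂ) in 𝓝 (z (e₀, false) b₀, b₀),
        ∃ y, g' (some (h (e₀, false))) p.1 p.2 = M.ιN y ∧ a y = ((0 : ℂ) : OnePoint ℂ) := by
  classical
  set nd : (Fin m' → ℂ) → S.X := fun b => g (h (e₀, true)) (z (e₀, true) b) b with hnd
  have hπn : ∀ b ∈ U, S.π (nd b) = φ b := fun b hb => G.proj b hb _ _
  -- the lifts
  have exN : ∀ b ∈ U, ∀ w, ∃ y, M.ρ y = nd b ∧ a y = w := by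
    intro b hb w
    refine H.ex (nd b) (hn b hb).1 w (fun c _ => ?_) fun c _ => ?_
    · rw [hπn b hb, (hτ b hb).1, (hτ b hb).2, (hn b hb).2.1, (hn b hb).2.2]; simp
    · rw [hπn b hb, (hτ b hb).1, (hτ b hb).2, (hn b hb).2.1, (hn b hb).2.2]; simp
  have exT : ∀ b ∈ U, ∀ x ∈ Uc, S.π x = φ b → v x = 0 →
      ∃ y, M.ρ y = x ∧ a y = OnePoint.infty := by
    intro b hb x hx hπ hv
    refine H.ex x hx _ (fun c e => absurd e.symm (OnePoint.coe_ne_infty c)) fun c e => ?_
    rw [inf_eq_infty e.symm, hπ, (hτ b hb).1, hv]; simp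
  have exF : ∀ b ∈ U, ∀ x ∈ Uc, S.π x = φ b → u x = 0 →
      ∃ y, M.ρ y = x ∧ a y = ((0 : ℂ) : OnePoint ℂ) := by
    intro b hb x hx hπ hu
    refine H.ex x hx _ (fun c e => ?_) fun c e => absurd e.symm (inf_ne_zero c)
    rw [← OnePoint.coe_injective e, hπ, (hτ b hb).2, hu]; simp
  obtain ⟨b₁, hb₁⟩ := hne
  obtain ⟨y₁, -⟩ := exN b₁ hb₁ OnePoint.infty
  have : Nonempty N'.X := ⟨y₁⟩
  set P : S.X → OnePoint ℂ → N'.X := fun x w => Classical.epsilon fun y => M.ρ y = x ∧ a y = w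
    with hPd
  have hP : ∀ x w, (∃ y, M.ρ y = x ∧ a y = w) → M.ρ (P x w) = x ∧ a (P x w) = w :=
    fun x w hx => Classical.epsilon_spec hx
  have hPu : ∀ y, P (M.ρ y) (a y) = y := by
    intro y
    have := hP (M.ρ y) (a y) ⟨y, rfl, rfl⟩
    exact H.ext this.1 this.2
  -- the centre in the fibres over `U`
  have hZ : ∀ b ∈ U, ∀ x, S.π x = φ b → (x ∈ M.Z ↔ x = nd b) := by
    intro b hb x hx
    rw [H.Z_eq]
    constructor
    · rintro ⟨h1, h2, h3, -⟩
      refine hS.inj h1 (hn b hb).1 ?_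
      simp only [Emap]
      rw [hx, h2, h3, (hn b hb).2.1, (hn b hb).2.2, hπn b hb]
    · rintro rfl
      exact ⟨(hn b hb).1, (hn b hb).2.1, (hn b hb).2.2, by rw [hx]; exact (hτ b hb).1,
        by rw [hx]; exact (hτ b hb).2⟩
  have hsp : ∀ b ∈ U, ∀ v w, g v w b = nd b ↔ (v = h (e₀, true) ∧ w = z (e₀, true) b) ∨
      (v = h (e₀, false) ∧ w = z (e₀, false) b) := by
    intro b hb v w
    rw [hnd, G.ident b hb]
    refine or_congr_right ⟨?_, ?_⟩
    · rintro ⟨e, s, ⟨h1, h2⟩, h3, h4⟩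
      have := G.sep b hb _ _ h3 h4
      rw [Prod.mk.injEq] at this
      obtain ⟨rfl, h5⟩ := this
      obtain rfl : s = false := by
        cases s
        · rfl
        · exact absurd h5 (by simp)
      exact ⟨h1, h2⟩
    · rintro ⟨h1, h2⟩
      exact ⟨e₀, false, ⟨h1, h2⟩, rfl, rfl⟩
  -- the normalisation of the new surface
  set g' : Option V → OnePoint ℂ → (Fin m' → ℂ) → M.T.X := fun o w b =>
    o.elim (M.ιN (P (nd b) w)) fun v' => if hx : g v' w b ∈ M.Z then
      (if v' = h (e₀, true) ∧ w = z (e₀, true) b then M.ιN (P (nd b) OnePoint.infty)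
        else M.ιN (P (nd b) ((0 : ℂ) : OnePoint ℂ))) else M.ιA (toA M (g v' w b) hx) with hg'
  have gn : ∀ w b, g' none w b = M.ιN (P (nd b) w) := fun w b => rfl
  have gs : ∀ v' w b (hx : g v' w b ∉ M.Z), g' (some v') w b = M.ιA (toA M (g v' w b) hx) := by
    intro v' w b hx
    change (if hx : g v' w b ∈ M.Z then _ else _) = _
    rw [dif_neg hx]
  have gT : ∀ b ∈ U, g' (some (h (e₀, true))) (z (e₀, true) b) b =
      M.ιN (P (nd b) OnePoint.infty) := by
    intro b hb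
    change (if hx : nd b ∈ M.Z then _ else _) = _
    rw [dif_pos ((hZ b hb _ (hπn b hb)).2 rfl)]
    exact if_pos ⟨rfl, rfl⟩
  have gF : ∀ b ∈ U, g' (some (h (e₀, false))) (z (e₀, false) b) b =
      M.ιN (P (nd b) ((0 : ℂ) : OnePoint ℂ)) := by
    intro b hb
    have h1 : g (h (e₀, false)) (z (e₀, false) b) b = nd b :=
      (hsp b hb _ _).2 (Or.inr ⟨rfl, rfl⟩)
    have h2 : g (h (e₀, false)) (z (e₀, false) b) b ∈ M.Z := by
      rw [hZ b hb _ (G.proj b hb _ _)]; exact h1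
    change (if hx : g (h (e₀, false)) (z (e₀, false) b) b ∈ M.Z then _ else _) = _
    rw [dif_pos h2]
    refine if_neg ?_
    rintro ⟨h3, h4⟩
    have := G.sep b hb _ _ h3 h4
    simp at this
  have rn : ∀ b ∈ U, ∀ w, M.r (g' none w b) = nd b := by
    intro b hb w
    rw [gn, M.rN]; exact (hP _ _ (exN b hb w)).1
  have rs : ∀ b ∈ U, ∀ v w, M.r (g' (some v) w b) = g v w b := by
    intro b hb v w
    by_cases hx : g v w b ∈ M.Z
    · have h1 := (hZ b hb _ (G.proj b hb _ _)).1 hx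
      rcases (hsp b hb _ _).1 h1 with ⟨rfl, rfl⟩ | ⟨rfl, rfl⟩
      · rw [gT b hb, M.rN]; exact (hP _ _ (exN b hb _)).1
      · rw [gF b hb, M.rN, h1]; exact (hP _ _ (exN b hb _)).1
    · rw [gs _ _ _ hx, rA_toA]
  have iNinj : ∀ b ∈ U, ∀ w w', M.ιN (P (nd b) w) = M.ιN (P (nd b) w') → w = w' := by
    intro b hb w w' e
    have h1 := M.embN.injective e
    rw [← (hP _ _ (exN b hb w)).2, h1, (hP _ _ (exN b hb w')).2]
  -- incidence of an old line and the new line
  have hsn : ∀ b ∈ U, ∀ v w w', g' (some v) w b = g' none w' b ↔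
      (v = h (e₀, true) ∧ w = z (e₀, true) b ∧ w' = OnePoint.infty) ∨
      (v = h (e₀, false) ∧ w = z (e₀, false) b ∧ w' = ((0 : ℂ) : OnePoint ℂ)) := by
    intro b hb v w w'
    constructor
    · intro e
      have h1 : g v w b = nd b := by rw [← rs b hb v w, e, rn b hb]
      rcases (hsp b hb _ _).1 h1 with ⟨rfl, rfl⟩ | ⟨rfl, rfl⟩
      · rw [gT b hb, gn] at e
        exact Or.inl ⟨rfl, rfl, (iNinj b hb _ _ e).symm⟩
      · rw [gF b hb, gn] at e
        exact Or.inr ⟨rfl, rfl, (iNinj b hb _ _ e).symm⟩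
    · rintro (⟨rfl, rfl, rfl⟩ | ⟨rfl, rfl, rfl⟩)
      · rw [gT b hb, gn]
      · rw [gF b hb, gn]
  have hss : ∀ b ∈ U, ∀ v w v' w', g' (some v) w b = g' (some v') w' b ↔ v = v' ∧ w = w' ∨
      ∃ (e : E) (s : Bool), e ≠ e₀ ∧ (v = h (e, s) ∧ w = z (e, s) b) ∧
        v' = h (e, !s) ∧ w' = z (e, !s) b := by
    intro b hb v w v' w'
    constructor
    · intro e
      have h1 : g v w b = g v' w' b := by rw [← rs b hb v w, e, rs b hb]
      rcases (G.ident b hb _ _ _ _).1 h1 with h2 | ⟨e₁, s, ⟨rfl, rfl⟩, rfl, rfl⟩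
      · exact Or.inl h2
      · by_cases he : e₁ = e₀
        · subst he
          exfalso
          cases s
          · rw [gF b hb] at e
            have : (!false) = true := rfl
            rw [this, gT b hb] at e
            exact OnePoint.coe_ne_infty _ (iNinj b hb _ _ e)
          · rw [gT b hb] at e
            have : (!true) = false := rfl
            rw [this, gF b hb] at e
            exact OnePoint.infty_ne_coe _ (iNinj b hb _ _ e)
        · exact Or.inr ⟨e₁, s, he, ⟨rfl, rfl⟩, rfl, rfl⟩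
    · rintro (⟨rfl, rfl⟩ | ⟨e₁, s, he, ⟨rfl, rfl⟩, rfl, rfl⟩)
      · rfl
      · have h1 : g (h (e₁, s)) (z (e₁, s) b) b = g (h (e₁, !s)) (z (e₁, !s) b) b :=
          (G.ident b hb _ _ _ _).2 (Or.inr ⟨e₁, s, ⟨rfl, rfl⟩, rfl, rfl⟩)
        have h2 : g (h (e₁, s)) (z (e₁, s) b) b ∉ M.Z := by
          rw [hZ b hb _ (G.proj b hb _ _), hsp b hb]
          rintro (⟨h3, h4⟩ | ⟨h3, h4⟩)
          · exact he (congrArg Prod.fst (G.sep b hb _ _ h3 h4))
          · exact he (congrArg Prod.fst (G.sep b hb _ _ h3 h4))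
        have h3 : g (h (e₁, !s)) (z (e₁, !s) b) b ∉ M.Z := h1 ▸ h2
        rw [gs _ _ _ h2, gs _ _ _ h3]
        congr 1
        exact M.incA_emb.injective h1
  have Unb : ∀ b ∈ U, U ∈ 𝓝 b := fun b hb => hU.mem_nhds hb
  have ndc : ContinuousOn nd U := by
    have h1 : ContinuousOn (fun b => (z (e₀, true) b, b)) U :=
      (G.zc (e₀, true)).prodMk continuousOn_id
    exact (G.cont (h (e₀, true))).comp h1 fun b hb => ⟨mem_univ _, hb⟩
  have gca : ∀ v w, ∀ b ∈ U, ContinuousAt (fun p : OnePoint ℂ × (Fin m' → ℂ) => g v p.1 p.2)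
      (w, b) := fun v w b hb => (G.cont v).continuousAt (prod_mem_nhds univ_mem (Unb b hb))
  have hev2 : ∀ (w : OnePoint ℂ) (b : Fin m' → ℂ), b ∈ U →
      ∀ᶠ p : OnePoint ℂ × (Fin m' → ℂ) in 𝓝 (w, b), p.2 ∈ U :=
    fun w b hb => continuousAt_snd.eventually (Unb b hb)
  -- the lifts near the special points
  have nearT : ∀ b₀ ∈ U, ∀ᶠ p : OnePoint ℂ × (Fin m' → ℂ) in 𝓝 (z (e₀, true) b₀, b₀),
      M.ρ (P (g (h (e₀, true)) p.1 p.2) OnePoint.infty) = g (h (e₀, true)) p.1 p.2 ∧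
      a (P (g (h (e₀, true)) p.1 p.2) OnePoint.infty) = OnePoint.infty ∧
      g' (some (h (e₀, true))) p.1 p.2 = M.ιN (P (g (h (e₀, true)) p.1 p.2) OnePoint.infty) := by
    intro b₀ hb₀
    have h1 : ∀ᶠ p : OnePoint ℂ × (Fin m' → ℂ) in 𝓝 (z (e₀, true) b₀, b₀),
        g (h (e₀, true)) p.1 p.2 ∈ Uc :=
      (gca _ _ _ hb₀).eventually (hS.isOpen.mem_nhds (hn b₀ hb₀).1)
    have h2 : ∀ᶠ p : OnePoint ℂ × (Fin m' → ℂ) in 𝓝 (z (e₀, true) b₀, b₀),
        h (e₀, true) = h (e₀, false) → p.1 ≠ z (e₀, false) p.2 := by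
      by_cases hh : h (e₀, true) = h (e₀, false)
      · have h3 : z (e₀, true) b₀ ≠ z (e₀, false) b₀ := by
          intro e
          have := G.sep b₀ hb₀ _ _ hh e
          simp at this
        have h4 : ContinuousAt (fun p : OnePoint ℂ × (Fin m' → ℂ) => z (e₀, false) p.2)
            (z (e₀, true) b₀, b₀) :=
          ContinuousAt.comp (g := z (e₀, false)) ((G.zc _).continuousAt (Unb b₀ hb₀))
            continuousAt_snd
        filter_upwards [tendsto_nhds_ne h4 h3] with p hp _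
        exact hp
      · exact Eventually.of_forall fun p hp => absurd hp hh
    filter_upwards [h1, h2, (hB b₀ hb₀).1, hev2 _ _ hb₀] with p hp1 hp2 hp3 hp4
    have h5 := hP _ _ (exT p.2 hp4 _ hp1 (G.proj _ hp4 _ _) hp3)
    refine ⟨h5.1, h5.2, ?_⟩
    by_cases hx : g (h (e₀, true)) p.1 p.2 ∈ M.Z
    · have h6 := (hZ _ hp4 _ (G.proj _ hp4 _ _)).1 hx
      rcases (hsp _ hp4 _ _).1 h6 with ⟨-, h7⟩ | ⟨h7, h8⟩
      · have h9 := gT p.2 hp4
        rw [← h7] at h9
        rw [h9, h6]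
      · exact absurd h8 (hp2 h7)
    · rw [gs _ _ _ hx]
      refine (eq_ιA ?_ hx).symm
      rw [M.rN, h5.1]
  have nearF : ∀ b₀ ∈ U, ∀ᶠ p : OnePoint ℂ × (Fin m' → ℂ) in 𝓝 (z (e₀, false) b₀, b₀),
      M.ρ (P (g (h (e₀, false)) p.1 p.2) ((0 : ℂ) : OnePoint ℂ)) = g (h (e₀, false)) p.1 p.2 ∧
      a (P (g (h (e₀, false)) p.1 p.2) ((0 : ℂ) : OnePoint ℂ)) = ((0 : ℂ) : OnePoint ℂ) ∧
      g' (some (h (e₀, false))) p.1 p.2 =
        M.ιN (P (g (h (e₀, false)) p.1 p.2) ((0 : ℂ) : OnePoint ℂ)) := by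
    intro b₀ hb₀
    have h0 : g (h (e₀, false)) (z (e₀, false) b₀) b₀ = nd b₀ :=
      (hsp b₀ hb₀ _ _).2 (Or.inr ⟨rfl, rfl⟩)
    have h1 : ∀ᶠ p : OnePoint ℂ × (Fin m' → ℂ) in 𝓝 (z (e₀, false) b₀, b₀),
        g (h (e₀, false)) p.1 p.2 ∈ Uc :=
      (gca _ _ _ hb₀).eventually (hS.isOpen.mem_nhds (by
        change g (h (e₀, false)) (z (e₀, false) b₀) b₀ ∈ Uc
        rw [h0]; exact (hn b₀ hb₀).1))
    have h2 : ∀ᶠ p : OnePoint ℂ × (Fin m' → ℂ) in 𝓝 (z (e₀, false) b₀, b₀),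
        h (e₀, false) = h (e₀, true) → p.1 ≠ z (e₀, true) p.2 := by
      by_cases hh : h (e₀, false) = h (e₀, true)
      · have h3 : z (e₀, false) b₀ ≠ z (e₀, true) b₀ := by
          intro e
          have := G.sep b₀ hb₀ _ _ hh e
          simp at this
        have h4 : ContinuousAt (fun p : OnePoint ℂ × (Fin m' → ℂ) => z (e₀, true) p.2)
            (z (e₀, false) b₀, b₀) :=
          ContinuousAt.comp (g := z (e₀, true)) ((G.zc _).continuousAt (Unb b₀ hb₀))
            continuousAt_snd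
        filter_upwards [tendsto_nhds_ne h4 h3] with p hp _
        exact hp
      · exact Eventually.of_forall fun p hp => absurd hp hh
    filter_upwards [h1, h2, (hB b₀ hb₀).2, hev2 _ _ hb₀] with p hp1 hp2 hp3 hp4
    have h5 := hP _ _ (exF p.2 hp4 _ hp1 (G.proj _ hp4 _ _) hp3)
    refine ⟨h5.1, h5.2, ?_⟩
    by_cases hx : g (h (e₀, false)) p.1 p.2 ∈ M.Z
    · have h6 := (hZ _ hp4 _ (G.proj _ hp4 _ _)).1 hx
      rcases (hsp _ hp4 _ _).1 h6 with ⟨h7, h8⟩ | ⟨-, h7⟩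
      · exact absurd h8 (hp2 h7)
      · have h9 := gF p.2 hp4
        rw [← h7] at h9
        rw [h9, h6]
    · rw [gs _ _ _ hx]
      refine (eq_ιA ?_ hx).symm
      rw [M.rN, h5.1]
  have zc' : ∀ y, ContinuousOn (zI z e₀ y) U := by
    rintro ⟨_ | e, s⟩
    · cases s
      · exact G.zc _
      · exact continuousOn_const
    · by_cases hc : e = e₀ ∧ s = false
      · have : zI z e₀ (some e, s) = fun _ => OnePoint.infty := if_pos hc
        rw [this]; exact continuousOn_const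
      · have : zI z e₀ (some e, s) = z (e, s) := if_neg hc
        rw [this]; exact G.zc _
  have sep' : ∀ b ∈ U, ∀ y y', hI h e₀ y = hI h e₀ y' → zI z e₀ y b = zI z e₀ y' b → y = y' := by
    -- the half-edges at the old lines
    have key : ∀ y : Option E × Bool, (∃ y₀ : E × Bool, hI h e₀ y = some (h y₀) ∧
        zI z e₀ y = z y₀ ∧ (y = (none, false) ∧ y₀ = (e₀, false) ∨
          y = (some y₀.1, y₀.2) ∧ ¬ (y₀.1 = e₀ ∧ y₀.2 = false))) ∨
        (hI h e₀ y = none ∧ (y = (none, true) ∧ zI z e₀ y = (fun _ => ((0 : ℂ) : OnePoint ℂ)) ∨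
          y = (some e₀, false) ∧ zI z e₀ y = fun _ => OnePoint.infty)) := by
      rintro ⟨_ | e, s⟩
      · cases s
        · exact Or.inl ⟨(e₀, false), rfl, rfl, Or.inl ⟨rfl, rfl⟩⟩
        · exact Or.inr ⟨rfl, Or.inl ⟨rfl, rfl⟩⟩
      · by_cases hc : e = e₀ ∧ s = false
        · obtain ⟨rfl, rfl⟩ := hc
          exact Or.inr ⟨if_pos ⟨rfl, rfl⟩, Or.inr ⟨rfl, if_pos ⟨rfl, rfl⟩⟩⟩
        · exact Or.inl ⟨(e, s), if_neg hc, if_neg hc, Or.inr ⟨rfl, hc⟩⟩
    intro b hb y y' hyy hzz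
    rcases key y with ⟨x, h1, h2, h3⟩ | ⟨h1, h3⟩ <;> rcases key y' with ⟨x', h1', h2', h3'⟩ | ⟨h1', h3'⟩
    · rw [h1, h1'] at hyy
      rw [h2, h2'] at hzz
      have hx : x = x' := G.sep b hb _ _ (Option.some_injective _ hyy) hzz
      subst hx
      rcases h3 with ⟨rfl, rfl⟩ | ⟨rfl, h4⟩ <;> rcases h3' with ⟨rfl, h5⟩ | ⟨rfl, h4'⟩
      · rfl
      · exact absurd ⟨rfl, rfl⟩ h4'
      · exact absurd ⟨congrArg Prod.fst h5, congrArg Prod.snd h5⟩ h4
      · rfl
    · rw [h1, h1'] at hyy; exact absurd hyy (by simp)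
    · rw [h1, h1'] at hyy; exact absurd hyy (by simp)
    · rcases h3 with ⟨rfl, h4⟩ | ⟨rfl, h4⟩ <;> rcases h3' with ⟨rfl, h4'⟩ | ⟨rfl, h4'⟩
      · rfl
      · rw [h4, h4'] at hzz; exact absurd hzz.symm (OnePoint.infty_ne_coe _)
      · rw [h4, h4'] at hzz; exact absurd hzz (OnePoint.infty_ne_coe _)
      · rfl
  have ident' : ∀ b ∈ U, ∀ v w v' w', g' v w b = g' v' w' b ↔ v = v' ∧ w = w' ∨
      ∃ (e : Option E) (s : Bool), (v = hI h e₀ (e, s) ∧ w = zI z e₀ (e, s) b) ∧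
        v' = hI h e₀ (e, !s) ∧ w' = zI z e₀ (e, !s) b := by
    have hI1 : hI h e₀ (some e₀, true) = some (h (e₀, true)) := if_neg (by simp)
    have hI2 : hI h e₀ (some e₀, false) = none := if_pos (by simp)
    have zI1 : zI z e₀ (some e₀, true) = z (e₀, true) := if_neg (by simp)
    have zI2 : zI z e₀ (some e₀, false) = fun _ => OnePoint.infty := if_pos (by simp)
    have hI3 : ∀ e s, e ≠ e₀ → hI h e₀ (some e, s) = some (h (e, s)) :=
      fun e s he => if_neg fun h => he h.1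
    have zI3 : ∀ e s, e ≠ e₀ → zI z e₀ (some e, s) = z (e, s) :=
      fun e s he => if_neg fun h => he h.1
    -- the identification pattern, by vertices
    have pat : ∀ b (o : Option V) w (o' : Option V) w', (∃ (e : Option E) (s : Bool),
        (o = hI h e₀ (e, s) ∧ w = zI z e₀ (e, s) b) ∧
        o' = hI h e₀ (e, !s) ∧ w' = zI z e₀ (e, !s) b) ↔
        (∃ v v', o = some v ∧ o' = some v' ∧ ∃ (e : E) (s : Bool), e ≠ e₀ ∧
          (v = h (e, s) ∧ w = z (e, s) b) ∧ v' = h (e, !s) ∧ w' = z (e, !s) b) ∨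
        (o = some (h (e₀, true)) ∧ w = z (e₀, true) b ∧ o' = none ∧ w' = OnePoint.infty) ∨
        (o' = some (h (e₀, true)) ∧ w' = z (e₀, true) b ∧ o = none ∧ w = OnePoint.infty) ∨
        (o = some (h (e₀, false)) ∧ w = z (e₀, false) b ∧ o' = none ∧
          w' = ((0 : ℂ) : OnePoint ℂ)) ∨
        (o' = some (h (e₀, false)) ∧ w' = z (e₀, false) b ∧ o = none ∧
          w = ((0 : ℂ) : OnePoint ℂ)) := by
      intro b o w o' w'
      constructor
      · rintro ⟨_ | e, s, ⟨rfl, rfl⟩, rfl, rfl⟩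
        · cases s
          · exact Or.inr (Or.inr (Or.inr (Or.inl ⟨rfl, rfl, rfl, rfl⟩)))
          · exact Or.inr (Or.inr (Or.inr (Or.inr ⟨rfl, rfl, rfl, rfl⟩)))
        · by_cases he : e = e₀
          · subst he
            cases s
            · simp only [Bool.not_false, hI1, hI2, zI1, zI2]
              exact Or.inr (Or.inr (Or.inl ⟨trivial, trivial, trivial, trivial⟩))
            · simp only [Bool.not_true, hI1, hI2, zI1, zI2]
              exact Or.inr (Or.inl ⟨trivial, trivial, trivial, trivial⟩)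
          · rw [hI3 e _ he, hI3 e _ he, zI3 e _ he, zI3 e _ he]
            exact Or.inl ⟨_, _, rfl, rfl, e, s, he, ⟨rfl, rfl⟩, rfl, rfl⟩
      · rintro (⟨_, _, rfl, rfl, e, s, he, ⟨rfl, rfl⟩, rfl, rfl⟩ | ⟨rfl, rfl, rfl, rfl⟩ |
          ⟨rfl, rfl, rfl, rfl⟩ | ⟨rfl, rfl, rfl, rfl⟩ | ⟨rfl, rfl, rfl, rfl⟩)
        · refine ⟨some e, s, ?_⟩
          rw [hI3 e _ he, hI3 e _ he, zI3 e _ he, zI3 e _ he]
          exact ⟨⟨rfl, rfl⟩, rfl, rfl⟩
        · refine ⟨some e₀, true, ?_⟩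
          rw [Bool.not_true, hI1, hI2, zI1, zI2]
          exact ⟨⟨rfl, rfl⟩, rfl, rfl⟩
        · refine ⟨some e₀, false, ?_⟩
          rw [Bool.not_false, hI1, hI2, zI1, zI2]
          exact ⟨⟨rfl, rfl⟩, rfl, rfl⟩
        · exact ⟨none, false, ⟨rfl, rfl⟩, rfl, rfl⟩
        · exact ⟨none, true, ⟨rfl, rfl⟩, rfl, rfl⟩
    intro b hb o w o' w'
    rw [pat]
    rcases o with _ | v <;> rcases o' with _ | v'
    · rw [gn, gn]
      constructor
      · intro e; exact Or.inl ⟨rfl, iNinj b hb _ _ e⟩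
      · rintro (⟨-, rfl⟩ | ⟨_, _, h1, -⟩ | ⟨h1, -⟩ | ⟨h1, -⟩ | ⟨h1, -⟩ | ⟨h1, -⟩)
        · rfl
        all_goals exact absurd h1 (by simp)
    · rw [eq_comm, hsn b hb]
      constructor
      · rintro (⟨rfl, rfl, rfl⟩ | ⟨rfl, rfl, rfl⟩)
        · exact Or.inr (Or.inr (Or.inr (Or.inl ⟨rfl, rfl, rfl, rfl⟩)))
        · exact Or.inr (Or.inr (Or.inr (Or.inr (Or.inr ⟨rfl, rfl, rfl, rfl⟩))))
      · rintro (⟨h1, -⟩ | ⟨_, _, h1, -⟩ | ⟨h1, -⟩ | ⟨h1, h2, -, h3⟩ | ⟨h1, -⟩ | ⟨h1, h2, -, h3⟩)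
        · exact absurd h1 (by simp)
        · exact absurd h1 (by simp)
        · exact absurd h1 (by simp)
        · exact Or.inl ⟨Option.some_injective _ h1, h2, h3⟩
        · exact absurd h1 (by simp)
        · exact Or.inr ⟨Option.some_injective _ h1, h2, h3⟩
    · rw [hsn b hb]
      constructor
      · rintro (⟨rfl, rfl, rfl⟩ | ⟨rfl, rfl, rfl⟩)
        · exact Or.inr (Or.inr (Or.inl ⟨rfl, rfl, rfl, rfl⟩))
        · exact Or.inr (Or.inr (Or.inr (Or.inr (Or.inl ⟨rfl, rfl, rfl, rfl⟩))))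
      · rintro (⟨h1, -⟩ | ⟨_, _, -, h1, -⟩ | ⟨h1, h2, -, h3⟩ | ⟨h1, -⟩ | ⟨h1, h2, -, h3⟩ | ⟨h1, -⟩)
        · exact absurd h1 (by simp)
        · exact absurd h1 (by simp)
        · exact Or.inl ⟨Option.some_injective _ h1, h2, h3⟩
        · exact absurd h1 (by simp)
        · exact Or.inr ⟨Option.some_injective _ h1, h2, h3⟩
        · exact absurd h1 (by simp)
    · rw [hss b hb]
      constructor
      · rintro (⟨rfl, rfl⟩ | h1)
        · exact Or.inl ⟨rfl, rfl⟩
        · exact Or.inr (Or.inl ⟨v, v', rfl, rfl, h1⟩)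
      · rintro (⟨h1, rfl⟩ | ⟨_, _, h1, h2, h3⟩ | ⟨-, -, h1, -⟩ | ⟨-, -, h1, -⟩ | ⟨-, -, h1, -⟩ |
          ⟨-, -, h1, -⟩)
        · exact Or.inl ⟨Option.some_injective _ h1, rfl⟩
        · rw [← Option.some_injective _ h1, ← Option.some_injective _ h2] at h3
          exact Or.inr h3
        all_goals exact absurd h1 (by simp)
  have onto' : ∀ b ∈ U, ∀ p, M.T.π p = φ b → ∃ v w, g' v w b = p := by
    intro b hb p hp
    have h0 : S.π (M.r p) = φ b := by rw [M.πr]; exact hp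
    by_cases hx : M.r p ∈ M.Z
    · obtain ⟨y, rfl⟩ := M.mem_rangeN.2 (M.sub hx)
      have h1 : M.ρ y = nd b := by
        rw [← M.rN]; exact (hZ b hb _ h0).1 hx
      refine ⟨none, a y, ?_⟩
      rw [gn, ← h1, hPu]
    · obtain ⟨v, w, hvw⟩ := G.onto b hb _ h0
      have h1 : g v w b ∉ M.Z := by rw [hvw]; exact hx
      refine ⟨some v, w, ?_⟩
      rw [gs _ _ _ h1]
      exact (eq_ιA hvw.symm h1).symm
  have proj' : ∀ b ∈ U, ∀ v w, M.T.π (g' v w b) = φ b := by
    intro b hb o w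
    rw [← M.πr]
    rcases o with _ | v
    · rw [rn b hb]; exact hπn b hb
    · rw [rs b hb]; exact G.proj b hb _ _
  -- continuity
  have Pc : ∀ b ∈ U, ∀ w, ContinuousAt
      (fun p : OnePoint ℂ × (Fin m' → ℂ) => P (nd p.2) p.1) (w, b) := by
    intro b hb w
    rw [H.emb.continuousAt_iff]
    have h1 : ContinuousAt (fun p : OnePoint ℂ × (Fin m' → ℂ) => (nd p.2, p.1)) (w, b) :=
      (ContinuousAt.comp (g := nd) (ndc.continuousAt (Unb b hb)) continuousAt_snd).prodMk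
        continuousAt_fst
    refine h1.congr ?_
    filter_upwards [hev2 w b hb] with p hp
    have := hP _ _ (exN p.2 hp p.1)
    exact (Prod.ext this.1 this.2).symm
  have PTc : ∀ b ∈ U, ContinuousAt (fun p : OnePoint ℂ × (Fin m' → ℂ) =>
      P (g (h (e₀, true)) p.1 p.2) OnePoint.infty) (z (e₀, true) b, b) := by
    intro b hb
    rw [H.emb.continuousAt_iff]
    have h1 : ContinuousAt (fun p : OnePoint ℂ × (Fin m' → ℂ) =>
        (g (h (e₀, true)) p.1 p.2, (OnePoint.infty : OnePoint ℂ))) (z (e₀, true) b, b) :=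
      ContinuousAt.prodMk (gca _ _ _ hb) continuousAt_const
    refine h1.congr ?_
    filter_upwards [nearT b hb] with p hp
    exact (Prod.ext hp.1 hp.2.1).symm
  have PFc : ∀ b ∈ U, ContinuousAt (fun p : OnePoint ℂ × (Fin m' → ℂ) =>
      P (g (h (e₀, false)) p.1 p.2) ((0 : ℂ) : OnePoint ℂ)) (z (e₀, false) b, b) := by
    intro b hb
    rw [H.emb.continuousAt_iff]
    have h1 : ContinuousAt (fun p : OnePoint ℂ × (Fin m' → ℂ) =>
        (g (h (e₀, false)) p.1 p.2, ((0 : ℂ) : OnePoint ℂ))) (z (e₀, false) b, b) :=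
      ContinuousAt.prodMk (gca _ _ _ hb) continuousAt_const
    refine h1.congr ?_
    filter_upwards [nearF b hb] with p hp
    exact (Prod.ext hp.1 hp.2.1).symm
  have cont' : ∀ o, ContinuousOn (fun p : OnePoint ℂ × (Fin m' → ℂ) => g' o p.1 p.2)
      (univ ×ˢ U) := by
    rintro (_ | v) ⟨w, b⟩ ⟨-, hb⟩
    · exact (M.embN.continuous.continuousAt.comp (Pc b hb w)).continuousWithinAt
    · refine ContinuousAt.continuousWithinAt ?_
      by_cases hx : g v w b ∈ M.Z
      · rcases (hsp b hb _ _).1 ((hZ b hb _ (G.proj b hb _ _)).1 hx) with ⟨rfl, rfl⟩ | ⟨rfl, rfl⟩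
        · refine (M.embN.continuous.continuousAt.comp (PTc b hb)).congr ?_
          filter_upwards [nearT b hb] with p hp using hp.2.2.symm
        · refine (M.embN.continuous.continuousAt.comp (PFc b hb)).congr ?_
          filter_upwards [nearF b hb] with p hp using hp.2.2.symm
      · have h1 := tendsto_of_r (M := M) (l := 𝓝 ((w, b) : OnePoint ℂ × (Fin m' → ℂ)))
          (f := fun p => g' (some v) p.1 p.2) hx ?_
        · rw [ContinuousAt]
          simp only
          rw [gs _ _ _ hx]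
          exact h1
        · refine (gca v w b hb).tendsto.congr' ?_
          filter_upwards [hev2 w b hb] with p hp using (rs _ hp _ _).symm
  -- holomorphy
  have hol' : ∀ b ∈ U, ∀ v w f, M.T.hol (g' v w b) f → Hol1 (fun w b => f (g' v w b)) w b := by
    rintro b hb (_ | v) w f hf
    · rw [gn, M.holN] at hf
      have hy := hP _ _ (exN b hb w)
      refine ⟨fun c hc => ?_, fun hw => ?_⟩
      · subst hc
        have hmem : P (nd b) c ∈ {y | a y ≠ OnePoint.infty} := by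
          change a _ ≠ _
          rw [hy.2]; exact OnePoint.coe_ne_infty _
        obtain ⟨k, hk, hk'⟩ := (H.m0.hol _ hmem _).1 hf
        have hE : ∀ b' ∈ U, ∀ c' : ℂ, Emap N'.π af (fun y => v (M.ρ y)) (P (nd b') c') =
            (φ b', c', 0) := by
          intro b' hb' c'
          have hy' := hP _ _ (exN b' hb' c')
          simp only [Emap]
          rw [← M.hπ, hy'.1, hπn b' hb', H.af_eq _ _ hy'.2, (hn b' hb').2.2]
        rw [hE b hb c] at hk
        have h1 : AnalyticAt ℂ (fun u : ℂ × (Fin m' → ℂ) => k (φ u.2, u.1, 0)) (c, b) :=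
          AnalyticAt.comp (g := k) (f := fun u : ℂ × (Fin m' → ℂ) => (φ u.2, u.1, (0 : ℂ)))
            (x := (c, b)) hk ((AnalyticAt.comp (g := φ) (x := (c, b)) (hφ b hb)
              analyticAt_snd).prod (analyticAt_fst.prod analyticAt_const))
        refine h1.congr ?_
        have h2 : ContinuousAt (fun u : ℂ × (Fin m' → ℂ) => P (nd u.2) u.1) (c, b) :=
          ContinuousAt.comp (g := fun p : OnePoint ℂ × (Fin m' → ℂ) => P (nd p.2) p.1)
            (f := fun u : ℂ × (Fin m' → ℂ) => ((u.1 : OnePoint ℂ), u.2)) (x := (c, b))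
            (Pc b hb c)
            ((OnePoint.continuous_coe.continuousAt.comp continuousAt_fst).prodMk continuousAt_snd)
        have h3 : ∀ᶠ u : ℂ × (Fin m' → ℂ) in 𝓝 (c, b), u.2 ∈ U :=
          continuousAt_snd.eventually (Unb b hb)
        filter_upwards [h2.eventually hk', h3] with u hu hu2
        have h4 : f (M.ιN (P (nd u.2) u.1)) = k (Emap N'.π af (fun y => v (M.ρ y))
          (P (nd u.2) u.1)) := hu
        change _ = f (M.ιN (P (nd u.2) u.1))
        rw [h4, hE _ hu2]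
      · subst hw
        have hmem : P (nd b) OnePoint.infty ∈ {y | a y ≠ ((0 : ℂ) : OnePoint ℂ)} := by
          change a _ ≠ _
          rw [hy.2]; exact OnePoint.infty_ne_coe _
        obtain ⟨k, hk, hk'⟩ := (H.m1.hol _ hmem _).1 hf
        have hE : ∀ b' ∈ U, ∀ c' : ℂ, Emap N'.π (fun y => u (M.ρ y)) ai (P (nd b') (inf c')) =
            (φ b', 0, c') := by
          intro b' hb' c'
          have hy' := hP _ _ (exN b' hb' (inf c'))
          simp only [Emap]
          rw [← M.hπ, hy'.1, hπn b' hb', H.ai_eq _ _ hy'.2, (hn b' hb').2.1]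
        have hE0 := hE b hb 0
        rw [inf_zero] at hE0
        rw [hE0] at hk
        have h1 : AnalyticAt ℂ (fun u : ℂ × (Fin m' → ℂ) => k (φ u.2, 0, u.1)) (0, b) :=
          AnalyticAt.comp (g := k) (f := fun u : ℂ × (Fin m' → ℂ) => (φ u.2, (0 : ℂ), u.1))
            (x := ((0 : ℂ), b)) hk ((AnalyticAt.comp (g := φ) (x := ((0 : ℂ), b)) (hφ b hb)
              analyticAt_snd).prod (analyticAt_const.prod analyticAt_fst))
        refine h1.congr ?_
        have h0 : ContinuousAt (fun u : ℂ × (Fin m' → ℂ) => (inf u.1, u.2)) (0, b) :=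
          (continuous_inf.continuousAt.comp continuousAt_fst).prodMk continuousAt_snd
        have h2 : Tendsto (fun u : ℂ × (Fin m' → ℂ) => P (nd u.2) (inf u.1)) (𝓝 (0, b))
            (𝓝 (P (nd b) OnePoint.infty)) := by
          rw [ContinuousAt, inf_zero] at h0
          exact (Pc b hb OnePoint.infty).tendsto.comp h0
        have h3 : ∀ᶠ u : ℂ × (Fin m' → ℂ) in 𝓝 (0, b), u.2 ∈ U :=
          continuousAt_snd.eventually (Unb b hb)
        filter_upwards [h2.eventually hk', h3] with p hp hp2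
        have h4 : f (M.ιN (P (nd p.2) (inf p.1))) = k (Emap N'.π (fun y => u (M.ρ y)) ai
          (P (nd p.2) (inf p.1))) := hp
        change _ = f (M.ιN (P (nd p.2) (inf p.1)))
        rw [h4, hE _ hp2]
    · by_cases hx : g v w b ∈ M.Z
      · rcases (hsp b hb _ _).1 ((hZ b hb _ (G.proj b hb _ _)).1 hx) with ⟨rfl, rfl⟩ | ⟨rfl, rfl⟩
        · rw [gT b hb, M.holN] at hf
          have hy := hP _ _ (exN b hb OnePoint.infty)
          have hmem : P (nd b) OnePoint.infty ∈ {y | a y ≠ ((0 : ℂ) : OnePoint ℂ)} := by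
            change a _ ≠ _
            rw [hy.2]; exact OnePoint.infty_ne_coe _
          obtain ⟨k, hk, hk'⟩ := (H.m1.hol _ hmem _).1 hf
          have hk2 : AnalyticAt ℂ k (φ b, u (g (h (e₀, true)) (z (e₀, true) b) b), 0) := by
            have : Emap N'.π (fun y => u (M.ρ y)) ai (P (nd b) OnePoint.infty) =
                (φ b, u (g (h (e₀, true)) (z (e₀, true) b) b), 0) := by
              simp only [Emap]
              rw [← M.hπ, hy.1, hπn b hb, H.ai_eq _ 0 (by rw [hy.2, inf_zero])]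
            rwa [this] at hk
          have h1 : Hol1 (fun w b => k (φ b, u (g (h (e₀, true)) w b), 0)) (z (e₀, true) b) b :=
            hol1_comp (A := fun w b => u (g (h (e₀, true)) w b)) (B := fun _ _ => 0) hk2 (hφ b hb)
              (G.hol b hb _ _ u (hS.hol_u (hn b hb).1)) (hol1_const 0 _ _)
          refine hol1_congr h1 ?_
          have h2 : Tendsto (fun p : OnePoint ℂ × (Fin m' → ℂ) =>
              P (g (h (e₀, true)) p.1 p.2) OnePoint.infty) (𝓝 (z (e₀, true) b, b))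
              (𝓝 (P (nd b) OnePoint.infty)) := (PTc b hb).tendsto
          filter_upwards [h2.eventually hk', nearT b hb, hev2 _ _ hb] with p hp hp2 hp3
          have h4 : f (M.ιN (P (g (h (e₀, true)) p.1 p.2) OnePoint.infty)) =
            k (Emap N'.π (fun y => u (M.ρ y)) ai (P (g (h (e₀, true)) p.1 p.2) OnePoint.infty)) :=
            hp
          rw [hp2.2.2, h4]
          simp only [Emap]
          rw [← M.hπ, hp2.1, G.proj _ hp3, H.ai_eq _ 0 (by rw [hp2.2.1, inf_zero])]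
        · rw [gF b hb, M.holN] at hf
          have hy := hP _ _ (exN b hb ((0 : ℂ) : OnePoint ℂ))
          have h0 : g (h (e₀, false)) (z (e₀, false) b) b = nd b :=
            (hsp b hb _ _).2 (Or.inr ⟨rfl, rfl⟩)
          have hmem : P (nd b) ((0 : ℂ) : OnePoint ℂ) ∈ {y | a y ≠ OnePoint.infty} := by
            change a _ ≠ _
            rw [hy.2]; exact OnePoint.coe_ne_infty _
          obtain ⟨k, hk, hk'⟩ := (H.m0.hol _ hmem _).1 hf
          have hk2 : AnalyticAt ℂ k (φ b, 0, v (g (h (e₀, false)) (z (e₀, false) b) b)) := by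
            have : Emap N'.π af (fun y => v (M.ρ y)) (P (nd b) ((0 : ℂ) : OnePoint ℂ)) =
                (φ b, 0, v (g (h (e₀, false)) (z (e₀, false) b) b)) := by
              simp only [Emap]
              rw [← M.hπ, hy.1, hπn b hb, H.af_eq _ 0 hy.2, h0]
            rwa [this] at hk
          have h1 : Hol1 (fun w b => k (φ b, 0, v (g (h (e₀, false)) w b)))
              (z (e₀, false) b) b :=
            hol1_comp (B := fun w b => v (g (h (e₀, false)) w b)) (A := fun _ _ => 0) hk2 (hφ b hb)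
              (hol1_const 0 _ _) (G.hol b hb _ _ v (hS.hol_v (by rw [h0]; exact (hn b hb).1)))
          refine hol1_congr h1 ?_
          have h2 : Tendsto (fun p : OnePoint ℂ × (Fin m' → ℂ) =>
              P (g (h (e₀, false)) p.1 p.2) ((0 : ℂ) : OnePoint ℂ)) (𝓝 (z (e₀, false) b, b))
              (𝓝 (P (nd b) ((0 : ℂ) : OnePoint ℂ))) := by
            have := (PFc b hb).tendsto
            simp only [h0] at this
            exact this
          filter_upwards [h2.eventually hk', nearF b hb, hev2 _ _ hb] with p hp hp2 hp3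
          have h4 : f (M.ιN (P (g (h (e₀, false)) p.1 p.2) ((0 : ℂ) : OnePoint ℂ))) =
            k (Emap N'.π af (fun y => v (M.ρ y))
              (P (g (h (e₀, false)) p.1 p.2) ((0 : ℂ) : OnePoint ℂ))) := hp
          rw [hp2.2.2, h4]
          simp only [Emap]
          rw [← M.hπ, hp2.1, G.proj _ hp3, H.af_eq _ 0 hp2.2.1]
      · rw [gs _ _ _ hx] at hf
        obtain ⟨f', hf', hev⟩ := hol_of_holA hx hf
        refine hol1_congr (G.hol b hb _ _ f' hf') ?_
        have h1 : ∀ᶠ p : OnePoint ℂ × (Fin m' → ℂ) in 𝓝 (w, b), g v p.1 p.2 ∉ M.Z :=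
          (gca v w b hb).eventually (M.closed.isOpen_compl.mem_nhds hx)
        filter_upwards [h1, (gca v w b hb).eventually hev] with p hp1 hp2
        rw [gs _ _ _ hp1]
        exact (hp2 hp1).symm
  refine ⟨g', ⟨sep', zc', cont', proj', onto', ident', hol'⟩, fun b hb w => ⟨_, rfl, ?_⟩, rs,
    fun b hb => ?_, fun b hb => ?_⟩
  · exact hP _ _ (exN b hb w)
  · filter_upwards [nearT b hb] with p hp
    exact ⟨_, hp.2.2, hp.2.1⟩
  · filter_upwards [nearF b hb] with p hp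
    exact ⟨_, hp.2.2, hp.2.1⟩

end Vale.Agent.P273.H395

end
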