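import Vale.Agent.P273.H395.NodeNorm
import Vale.Agent.P273.H591.NormOff

/-!
The insertion of a projective line at a node, for normalisation data of families with labels: the
labels that are not at the node keep their positions, the labels at the node get positions on the
new line.
-/

noncomputable section

namespace Vale.Agent.P273.H395

open Set Filter Topology H948 H837 H183 H591

variable {L V E : Type} {m m' : ℕ}

/-- The graph after the insertion; `μ x = some c`: the label `x` is on the new line. -/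
def hL [DecidableEq E] (h : (E × Bool) ⊕ L → V) (e₀ : E)
    (μ : L → Option ((Fin m' → ℂ) → OnePoint ℂ)) : (Option E × Bool) ⊕ L → Option V :=
  Sum.elim (hI (fun y => h (Sum.inl y)) e₀) fun x =>
    (μ x).elim (some (h (Sum.inr x))) fun _ => none

/-- The positions after the insertion. -/
def zL [DecidableEq E] (z : (E × Bool) ⊕ L → (Fin m' → ℂ) → OnePoint ℂ) (e₀ : E)
    (μ : L → Option ((Fin m' → ℂ) → OnePoint ℂ)) :
    (Option E × Bool) ⊕ L → (Fin m' → ℂ) → OnePoint ℂ :=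
  Sum.elim (zI (fun y => z (Sum.inl y)) e₀) fun x => (μ x).getD (z (Sum.inr x))

/-- Normalisation data of a family with labels, with distinct continuous positions of the
half-edges. -/
structure NormL (S : Surf m) (B : Set (Fin m → ℂ)) (s : L → (Fin m → ℂ) → S.X)
    (U : Set (Fin m' → ℂ)) (φ : (Fin m' → ℂ) → Fin m → ℂ)
    (h : (E × Bool) ⊕ L → V) (z : (E × Bool) ⊕ L → (Fin m' → ℂ) → OnePoint ℂ)
    (g : V → OnePoint ℂ → (Fin m' → ℂ) → S.X) : Prop where
  norm : Norm (fam S B s) U φ h z g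
  sep : ∀ b ∈ U, ∀ y y' : E × Bool, h (Sum.inl y) = h (Sum.inl y') →
    z (Sum.inl y) b = z (Sum.inl y') b → y = y'
  zc : ∀ y : E × Bool, ContinuousOn (z (Sum.inl y)) U

theorem NormL.toS {S : Surf m} {B : Set (Fin m → ℂ)} {s : L → (Fin m → ℂ) → S.X}
    {U : Set (Fin m' → ℂ)} {φ : (Fin m' → ℂ) → Fin m → ℂ}
    {h : (E × Bool) ⊕ L → V} {z : (E × Bool) ⊕ L → (Fin m' → ℂ) → OnePoint ℂ}
    {g : V → OnePoint ℂ → (Fin m' → ℂ) → S.X} (G : NormL S B s U φ h z g) :
    NormS S U φ (fun y => h (Sum.inl y)) (fun y => z (Sum.inl y)) g where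
  sep := G.sep
  zc := G.zc
  cont := G.norm.cont
  proj := G.norm.proj
  onto := G.norm.onto
  ident := G.norm.ident
  hol := G.norm.hol

theorem NormS.toL {S : Surf m} {B : Set (Fin m → ℂ)} {s : L → (Fin m → ℂ) → S.X}
    {U : Set (Fin m' → ℂ)} {φ : (Fin m' → ℂ) → Fin m → ℂ}
    {h : (E × Bool) ⊕ L → V} {z : (E × Bool) ⊕ L → (Fin m' → ℂ) → OnePoint ℂ}
    {g : V → OnePoint ℂ → (Fin m' → ℂ) → S.X}
    (G : NormS S U φ (fun y => h (Sum.inl y)) (fun y => z (Sum.inl y)) g)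
    (an : ∀ b ∈ U, AnalyticAt ℂ φ b) (mem : ∀ b ∈ U, φ b ∈ B)
    (mark : ∀ b ∈ U, ∀ x, s x (φ b) = g (h (Sum.inr x)) (z (Sum.inr x) b) b) :
    NormL S B s U φ h z g where
  norm := ⟨an, mem, G.cont, G.proj, G.onto, G.ident, G.hol, mark⟩
  sep := G.sep
  zc := G.zc

/-- Smaller parameter sets. -/
theorem NormL.mono {S : Surf m} {B : Set (Fin m → ℂ)} {s : L → (Fin m → ℂ) → S.X}
    {U U' : Set (Fin m' → ℂ)} {φ : (Fin m' → ℂ) → Fin m → ℂ}
    {h : (E × Bool) ⊕ L → V} {z : (E × Bool) ⊕ L → (Fin m' → ℂ) → OnePoint ℂ}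
    {g : V → OnePoint ℂ → (Fin m' → ℂ) → S.X} (G : NormL S B s U φ h z g) (hU : U' ⊆ U) :
    NormL S B s U' φ h z g where
  norm := ⟨fun b hb => G.norm.an b (hU hb), fun b hb => G.norm.mem b (hU hb),
    fun v => (G.norm.cont v).mono (prod_mono Subset.rfl hU), fun b hb => G.norm.proj b (hU hb),
    fun b hb => G.norm.onto b (hU hb), fun b hb => G.norm.ident b (hU hb),
    fun b hb => G.norm.hol b (hU hb), fun b hb => G.norm.mark b (hU hb)⟩
  sep b hb := G.sep b (hU hb)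
  zc y := (G.zc y).mono hU

theorem Br.mono {X : Type} {U U' : Set (Fin m' → ℂ)} {h : E × Bool → V}
    {z : E × Bool → (Fin m' → ℂ) → OnePoint ℂ} {g : V → OnePoint ℂ → (Fin m' → ℂ) → X}
    {e : E} {u v : X → ℂ} (H : Br U h z g e u v) (hU : U' ⊆ U) : Br U' h z g e u v :=
  fun b hb => H b (hU hb)

/-- **Insertion of a projective line at a node, with labels.** -/
theorem norm_M3 [DecidableEq E] {S N' : Surf m} {M : Modif S N'} {Uc : Set S.X}
    {u v : S.X → ℂ} {t τ₀ τ₁ : (Fin m → ℂ) → ℂ} {a : N'.X → OnePoint ℂ} {af ai : N'.X → ℂ}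
    (H : NodeMod M Uc u v τ₀ τ₁ a af ai) (hS : IsModel S.π S.hol Uc u v t)
    {B : Set (Fin m → ℂ)} {s : L → (Fin m → ℂ) → S.X}
    {U : Set (Fin m' → ℂ)} {φ : (Fin m' → ℂ) → Fin m → ℂ} {h : (E × Bool) ⊕ L → V}
    {z : (E × Bool) ⊕ L → (Fin m' → ℂ) → OnePoint ℂ} {g : V → OnePoint ℂ → (Fin m' → ℂ) → S.X}
    (G : NormL S B s U φ h z g) (hU : IsOpen U) (hne : U.Nonempty) (e₀ : E)
    {nd : (Fin m' → ℂ) → S.X}
    (hnd : ∀ b ∈ U, g (h (Sum.inl (e₀, true))) (z (Sum.inl (e₀, true)) b) b = nd b)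
    (hn : ∀ b ∈ U, nd b ∈ Uc ∧ u (nd b) = 0 ∧ v (nd b) = 0)
    (hτ : ∀ b ∈ U, τ₀ (φ b) = 0 ∧ τ₁ (φ b) = 0)
    (hB : Br U (fun y => h (Sum.inl y)) (fun y => z (Sum.inl y)) g e₀ u v) :
    ∃ g' : Option V → OnePoint ℂ → (Fin m' → ℂ) → M.T.X,
      (∀ b ∈ U, ∀ w, ∃ y, g' none w b = M.ιN y ∧ M.ρ y = nd b ∧ a y = w) ∧
      (∀ b ∈ U, ∀ v w, M.r (g' (some v) w b) = g v w b) ∧
      Br U (hI (fun y => h (Sum.inl y)) e₀) (zI (fun y => z (Sum.inl y)) e₀) g' none
        (Function.extend M.ιN af 0) (Function.extend M.ιN (fun y => v (M.ρ y)) 0) ∧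
      Br U (hI (fun y => h (Sum.inl y)) e₀) (zI (fun y => z (Sum.inl y)) e₀) g' (some e₀)
        (Function.extend M.ιN (fun y => u (M.ρ y)) 0) (Function.extend M.ιN ai 0) ∧
      (∀ e ≠ e₀, ∀ u' v' : S.X → ℂ,
        Br U (fun y => h (Sum.inl y)) (fun y => z (Sum.inl y)) g e u' v' →
        Br U (hI (fun y => h (Sum.inl y)) e₀) (zI (fun y => z (Sum.inl y)) e₀) g' (some e)
          (u' ∘ M.r) (v' ∘ M.r)) ∧
      ∀ (s' : L → (Fin m → ℂ) → M.T.X) (μ : L → Option ((Fin m' → ℂ) → OnePoint ℂ)),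
        (∀ x c, μ x = some c → ∀ b ∈ U,
          ∃ y, s' x (φ b) = M.ιN y ∧ M.ρ y = nd b ∧ a y = c b) →
        (∀ x, μ x = none → ∀ b ∈ U, M.r (s' x (φ b)) = s x (φ b) ∧ s x (φ b) ≠ nd b) →
        NormL M.T B s' U φ (hL h e₀ μ) (zL z e₀ μ) g' := by
  have hZ : ∀ b ∈ U, ∀ x, S.π x = φ b → x ∈ M.Z → x = nd b := by
    intro b hb x hx hxZ
    rw [H.Z_eq] at hxZ
    obtain ⟨h1, h2, h3, -⟩ := hxZ
    refine hS.inj h1 (hn b hb).1 ?_
    have hπ : S.π (nd b) = φ b := by rw [← hnd b hb]; exact G.norm.proj b hb _ _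
    simp only [Emap]
    rw [hx, h2, h3, (hn b hb).2.1, (hn b hb).2.2, hπ]
  obtain ⟨g', hg, h0, hr, hT, hF⟩ := G.toS.insert H hS hU hne G.norm.an e₀
    (fun b hb => by simp only [hnd b hb]; exact hn b hb) hτ hB
  have h0' : ∀ b ∈ U, ∀ w, ∃ y, g' none w b = M.ιN y ∧ M.ρ y = nd b ∧ a y = w := by
    intro b hb w
    obtain ⟨y, h1, h2, h3⟩ := h0 b hb w
    exact ⟨y, h1, h2.trans (hnd b hb), h3⟩
  have hUe : ∀ (w : OnePoint ℂ) (b : Fin m' → ℂ), b ∈ U →
      ∀ᶠ p : OnePoint ℂ × (Fin m' → ℂ) in 𝓝 (w, b), p.2 ∈ U := fun w b hb =>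
    continuousAt_snd.eventually (hU.mem_nhds hb)
  have hex : ∀ (k : N'.X → ℂ) (y : N'.X), Function.extend M.ιN k 0 (M.ιN y) = k y := fun k y =>
    M.embN.injective.extend_apply _ _ _
  refine ⟨g', h0', hr, ?_, ?_, ?_, ?_⟩
  · intro b hb
    constructor
    · filter_upwards [hUe _ b hb] with p hp
      obtain ⟨y, h1, h2, -⟩ := h0' p.2 hp p.1
      change Function.extend M.ιN _ 0 (g' none p.1 p.2) = 0
      rw [h1, hex, h2]; exact (hn _ hp).2.2
    · filter_upwards [hF b hb] with p hp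
      obtain ⟨y, h1, h2⟩ := hp
      change Function.extend M.ιN _ 0 (g' (some (h (Sum.inl (e₀, false)))) p.1 p.2) = 0
      rw [h1, hex]; exact H.af_eq _ 0 h2
  · intro b hb
    constructor
    · have e1 : zI (fun y => z (Sum.inl y)) e₀ (some e₀, true) = z (Sum.inl (e₀, true)) := by
        simp [zI]
      have e2 : hI (fun y => h (Sum.inl y)) e₀ (some e₀, true) =
          some (h (Sum.inl (e₀, true))) := by simp [hI]
      rw [e1]
      filter_upwards [hT b hb] with p hp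
      obtain ⟨y, h1, h2⟩ := hp
      rw [e2, h1, hex]; exact H.ai_eq _ 0 (by rw [h2, inf_zero])
    · have e2 : hI (fun y => h (Sum.inl y)) e₀ (some e₀, false) = none := by simp [hI]
      filter_upwards [hUe _ b hb] with p hp
      obtain ⟨y, h1, h2, -⟩ := h0' p.2 hp p.1
      rw [e2, h1, hex, h2]; exact (hn _ hp).2.1
  · intro e he u' v' hb' b hb
    have e1 : ∀ s, zI (fun y => z (Sum.inl y)) e₀ (some e, s) = z (Sum.inl (e, s)) := by
      intro s; simp [zI, he]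
    have e2 : ∀ s, hI (fun y => h (Sum.inl y)) e₀ (some e, s) = some (h (Sum.inl (e, s))) := by
      intro s; simp [hI, he]
    rw [e1, e1, e2, e2]
    obtain ⟨h1, h2⟩ := hb' b hb
    constructor
    · filter_upwards [h1, hUe _ b hb] with p hp hp'
      simp only [Function.comp_apply]
      rw [hr _ hp']; exact hp
    · filter_upwards [h2, hUe _ b hb] with p hp hp'
      simp only [Function.comp_apply]
      rw [hr _ hp']; exact hp
  · intro s' μ hs hs'
    refine NormS.toL (h := hL h e₀ μ) (z := zL z e₀ μ) hg G.norm.an G.norm.mem ?_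
    intro b hb x
    rcases hx : μ x with _ | c
    · obtain ⟨h1, h2⟩ := hs' x hx b hb
      have e1 : hL h e₀ μ (Sum.inr x) = some (h (Sum.inr x)) := by simp [hL, hx]
      have e2 : zL z e₀ μ (Sum.inr x) = z (Sum.inr x) := by simp [zL, hx]
      rw [e1, e2]
      have h3 : s x (φ b) = g (h (Sum.inr x)) (z (Sum.inr x) b) b := G.norm.mark b hb x
      have h4 := hr b hb (h (Sum.inr x)) (z (Sum.inr x) b)
      have h5 : s x (φ b) ∉ M.Z := by
        intro h6
        refine h2 (hZ b hb _ ?_ h6)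
        rw [h3]; exact G.norm.proj b hb _ _
      refine M.r_inj ?_ ?_ ?_
      · change M.r _ ∈ M.Zᶜ
        rw [h1]; exact h5
      · change M.r _ ∈ M.Zᶜ
        rw [h4, ← h3]; exact h5
      · rw [h1, h4, h3]
    · obtain ⟨y, h1, h2, h3⟩ := hs x c hx b hb
      have e1 : hL h e₀ μ (Sum.inr x) = none := by simp [hL, hx]
      have e2 : zL z e₀ μ (Sum.inr x) = c := by simp [zL, hx]
      rw [e1, e2, h1]
      obtain ⟨y', h1', h2', h3'⟩ := h0' b hb (c b)
      rw [h1']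
      congr 1
      exact H.ext (h2.trans h2'.symm) (h3.trans h3'.symm)

end Vale.Agent.P273.H395

end
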