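import Vale.Agent.P273.H395.Comp
import Vale.Agent.P273.H228.Loop
import Vale.Agent.P273.H228.ExtLab
import Vale.Agent.P273.H599.RealEnd
import Vale.Agent.P273.H724.Good0

/-!
The final families over the open strata, from the start of the insertion process.
-/

noncomputable section

namespace Vale.Agent.P273.H395

open Set Filter Topology H95 H183 H837 H228 H728 H680 H724
open scoped Topology

/-- The start of the insertion process at the points of the open strata. -/
def StartEx : Prop :=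
  ∀ (T : H93.RB) (S : H93.Mk → Bool), H888.Far (rg T) S →
    ∀ (m : ℕ) (U : Set (Fin m → ℂ)) (φ : (Fin m → ℂ) → (rg T).Sp), IsOpen U →
    (∀ b ∈ U, AnalyticAt ℂ φ b) → (∀ b ∈ U, φ b ∈ (rg T).dom S) →
    (∀ b ∈ U, ∀ g : (rg T).Gap, (φ b).1 g = 0 ↔ (g.2 : ℕ) ∈ T.B g.1) →
    ∀ b₀ ∈ U, ∃ (_ : Nonempty (tot (base0 (k17 (rg T)) S) (co0 (k17 (rg T)))))
      (B : Set (Fin 17 → ℂ)) (U' : Set (Fin m → ℂ)) (ε : ℝ), b₀ ∈ U' ∧ U' ⊆ U ∧
      Bas T (fun b => H67.tau (R := rg T) (k17 (rg T) b)) B U'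
        (fun b => (k17 (rg T)).symm (φ b)) (st0 (k17 (rg T)) S) (P0 (k17 (rg T)) S) ε ∧
      H228.Inv T (fun b => H67.tau (R := rg T) (k17 (rg T) b)) B U'
        (fun b => (k17 (rg T)).symm (φ b)) (st0 (k17 (rg T)) S) (P0 (k17 (rg T)) S)
        (fun k _ => ((ctr k : ℂ) : OnePoint ℂ)) (fun x b => mz T S (φ b) x) fun _ => 0

/-- **From the start to the final families.** -/
theorem finEx_of_start (hst : StartEx) : FinEx := by
  intro T S hS m U φ hU hφ hdom hgap b hb f hf hsep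
  have hS' : H888.Far (rg T) S := hS
  obtain ⟨hne, B, U', ε, hbU', hUU, hB, hI⟩ := hst T S hS' m U φ hU hφ hdom hgap b hb
  have hff : f = fin T := by
    funext k
    have h1 := hf k
    have h2 : fin T k = (T.B k).card - 1 := rfl
    omega
  subst hff
  have hpos : ∀ x k r, T.comp x = Sum.inr (k, r) → ∀ b ∈ U', mz T S (φ b) x =
      ((gpr T (H67.tau (R := rg T) (k17 (rg T) ((k17 (rg T)).symm (φ b)))) k (T.rk x) : ℂ) :
        OnePoint ℂ) := by
    intro x k r hx b _
    rw [ContinuousLinearEquiv.apply_symm_apply]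
    exact mz_free S (φ b) hx
  have : Nonempty (tot (base0 (k17 (rg T)) S) fun q => ((rg T).psi (k17 (rg T) q)).1) := hne
  obtain ⟨σ, g, Uc, u, v, t, -, hs, Q⟩ := Inv.loop hB hpos _ (fun _ => 0)
    (fun k => Nat.zero_le _) rfl hI
  have hz' : ∀ j, ∀ b ∈ base0 (k17 (rg T)) S,
      AnalyticAt ℂ (fun q => ((rg T).psi (k17 (rg T) q)).2 j) b := fun j b _ => z0_an j b
  have key := H599.real_end (k := k17 (rg T)) (ψ := (rg T).psi) (S := S) (sg := (rg T).sht S)
    (W := base0 (k17 (rg T)) S) base0_open (fun b _ => co0_an b) co0_K hz'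
    (fun j b hb => v0_an j hb) (fun j b hb => sq0 hS' j hb) σ Q.norm hB.opn hB.anφ Q.mem
    (vL := vS T (fin T)) (zL := fun x b => mz T S (φ b) x)
    (fun j b hb => Q.lab j (fun k => not_atN_end fun _ => rfl) b hb) hbU' ?_ ?_ hs
  · obtain ⟨C, h1, h2, -, U'', h3, h4, h5, g', h6⟩ := key
    exact ⟨C, h1, h2, U'', g', h3, h4, h5.trans hUU, h6⟩
  · intro i j e1 e2
    refine Sum.inr_injective (hsep (Sum.inr i) (Sum.inr j) e1 ?_)
    rw [zz_end hf S φ _ b, zz_end hf S φ _ b]
    exact e2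
  · intro j y e1 e2
    have h1 := hsep (Sum.inr j) (Sum.inl y) e1 (by
      rw [zz_end hf S φ _ b, zz_end hf S φ _ b]
      exact e2)
    exact absurd h1 (by simp)

end Vale.Agent.P273.H395

end
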