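import Vale.Agent.P273.H228.Pos
import Vale.Agent.P273.H728.ExtOf

/-!
The last stage of the insertion process: its graph is the graph of the region with gaps.
-/

noncomputable section

namespace Vale.Agent.P273.H395

open Sum H93 H228 H728 H95

variable {T : RB} {f : Fin 3 → ℕ}

/-- The labels of the vertices. -/
def nmV (f : Fin 3 → ℕ) : VC f → Bool ⊕ (Fin 3 × ℕ) := Sum.elim inl fun x => inr x.1

theorem card_pos' (T : RB) (k : Fin 3) : 1 ≤ (T.B k).card := Finset.card_pos.2 (T.ne k)

theorem nmV_cp (hf : ∀ k, f k + 1 = (T.B k).card) (k : Fin 3) {r : ℕ} (hr : r ≤ (T.B k).card) :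
    nmV f (cp f k r) = lb T k r := by
  unfold cp lb
  by_cases h0 : r = 0
  · rw [if_pos h0, if_pos h0]; rfl
  · rw [if_neg h0, if_neg h0]
    by_cases h1 : r = (T.B k).card
    · rw [if_pos h1]
      have h2 : ¬ (1 ≤ r ∧ r ≤ f k) := by
        have := hf k
        omega
      change nmV f (if h : 1 ≤ r ∧ r ≤ f k then _ else _) = _
      rw [dif_neg h2]; rfl
    · rw [if_neg h1]
      have h2 : 1 ≤ r ∧ r ≤ f k := by
        have := hf k
        omega
      change nmV f (if h : 1 ≤ r ∧ r ≤ f k then _ else _) = _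
      rw [dif_pos h2]; rfl

/-- **The graph of the last stage.** -/
theorem lab_end (hf : ∀ k, f k + 1 = (T.B k).card) :
    Lab T (gr f fun x => loc f (T.comp x)) (nmV f) (Subtype.val : EC f → Fin 3 × ℕ) where
  nm_inj := by
    rintro (b | x) (b' | x') h
    · exact congrArg inl (Sum.inl_injective h)
    · exact absurd h (by simp [nmV])
    · exact absurd h (by simp [nmV])
    · exact congrArg inr (Subtype.ext (Sum.inr_injective h))
  ge_inj := Subtype.val_injective
  ge_ran k i := by
    have h1 := hf k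
    constructor
    · rintro ⟨⟨e, he⟩, rfl⟩
      have he : i ≤ f k := he
      omega
    · intro h
      exact ⟨⟨(k, i), by change i ≤ f k; omega⟩, rfl⟩
  edge e s := by
    obtain ⟨⟨k, i⟩, hi⟩ := e
    have hi : i ≤ f k := hi
    have h1 := hf k
    change nmV f (cp f k (if s = true then i else i + 1)) = lb T k (if s = true then i else i + 1)
    refine nmV_cp hf k ?_
    split_ifs <;> omega
  leg x := by
    change nmV f (loc f (T.comp x)) = T.comp x
    rcases h : T.comp x with b | ⟨k, r⟩
    · rfl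
    · obtain ⟨h1, h2, h3, h4⟩ := RB.comp_eq_inr.1 h
      have h5 : T.cnt k (T.rk x) ≤ (T.B k).card := Finset.card_le_card (Finset.filter_subset _ _)
      have h6 := hf k
      rw [loc_inr (by omega), nmV_cp hf k (by omega)]
      unfold lb
      rw [if_neg (by omega), if_neg h4]

/-- The positions of the last stage. -/
theorem zz_end (hf : ∀ k, f k + 1 = (T.B k).card) (S : Mk → Bool) {m : ℕ}
    (p : (Fin m → ℂ) → (rg T).Sp) (y : (EC f × Bool) ⊕ Mk) (b : Fin m → ℂ) :
    zz T S (Subtype.val : EC f → Fin 3 × ℕ) (p b) y =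
      Sum.elim (zE f fun k _ => (ctr k : OnePoint ℂ)) (fun x b => mz T S (p b) x) y b := by
  rcases y with ⟨⟨⟨k, i⟩, hi⟩, s⟩ | x
  · have h1 := hf k
    change hz T k i s = zE f (fun k _ => (ctr k : OnePoint ℂ)) (⟨(k, i), hi⟩, s) b
    cases s
    · rw [zE_false]
      by_cases h2 : i = f k
      · have e1 : hz T k i false = ((ctr k : ℂ) : OnePoint ℂ) := by
          unfold hz
          rw [if_neg (by simp), if_pos (by omega)]
        rw [e1, if_pos (show (⟨(k, i), hi⟩ : EC f).1.2 = f (⟨(k, i), hi⟩ : EC f).1.1 from h2)]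
      · have e1 : hz T k i false = OnePoint.infty := by
          unfold hz
          rw [if_neg (by simp), if_neg (by omega)]
        rw [e1, if_neg (show ¬ (⟨(k, i), hi⟩ : EC f).1.2 = f (⟨(k, i), hi⟩ : EC f).1.1 from h2)]
    · rw [zE_true]
      by_cases h2 : i = 0
      · have e1 : hz T k i true = ((ctr k : ℂ) : OnePoint ℂ) := by
          unfold hz
          rw [if_pos rfl, if_pos h2]
        rw [e1, if_pos (show (⟨(k, i), hi⟩ : EC f).1.2 = 0 from h2)]
      · have e1 : hz T k i true = ((0 : ℂ) : OnePoint ℂ) := by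
          unfold hz
          rw [if_pos rfl, if_neg h2]
        rw [e1, if_neg (show ¬ (⟨(k, i), hi⟩ : EC f).1.2 = 0 from h2)]
  · rfl

/-- Every vertex has a half-edge. -/
theorem gr_surj {L : Type} (lab : L → VC f) : Function.Surjective (gr f lab) := by
  rintro ((_ | _) | ⟨⟨k, r⟩, h1, h2⟩)
  · exact ⟨inl (⟨(0, 0), Nat.zero_le _⟩, true), rfl⟩
  · refine ⟨inl (lastE f 0, false), ?_⟩
    change cp f 0 (f 0 + 1) = inl true
    unfold cp
    rw [if_neg (by omega)]
    change (if h : 1 ≤ f 0 + 1 ∧ f 0 + 1 ≤ f 0 then _ else _) = _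
    rw [dif_neg (by omega)]
  · refine ⟨inl (⟨(k, r), h2⟩, true), ?_⟩
    have h1 : 1 ≤ r := h1
    have h2 : r ≤ f k := h2
    change cp f k r = _
    unfold cp
    rw [if_neg (by omega)]
    change (if h : 1 ≤ r ∧ r ≤ f k then _ else _) = _
    rw [dif_pos ⟨h1, h2⟩]

instance : Finite (EC f) := by
  have : Set.Finite {x : Fin 3 × ℕ | x.2 ≤ f x.1} := by
    refine ((Set.finite_univ (α := Fin 3)).prod
      (Set.finite_Iic (Finset.univ.sup f))).subset ?_
    rintro ⟨k, i⟩ h
    exact ⟨trivial, (show i ≤ f k from h).trans (Finset.le_sup (Finset.mem_univ k))⟩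
  exact this.to_subtype

instance : Finite (VC f) := by
  have : Set.Finite {x : Fin 3 × ℕ | 1 ≤ x.2 ∧ x.2 ≤ f x.1} := by
    refine ((Set.finite_univ (α := Fin 3)).prod
      (Set.finite_Iic (Finset.univ.sup f))).subset ?_
    rintro ⟨k, i⟩ h
    exact ⟨trivial, (show i ≤ f k from h.2).trans (Finset.le_sup (Finset.mem_univ k))⟩
  have := this.to_subtype
  exact inferInstanceAs (Finite (Bool ⊕ _))

end Vale.Agent.P273.H395

end
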