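import Vale.Agent.P273.H395.Link
import Vale.Agent.P273.H395.LabEnd
import Vale.Agent.P273.H450.OfReal
import Vale.Agent.P273.H888.Real

/-!
The local families of the regions near the strata: composition.
-/

noncomputable section

namespace Vale.Agent.P273.H395

open Set Filter Topology H95 H183 H837 H228 H728 H680
open scoped Topology

/-- Final families with normalisation data exist at the points of the open strata of the regions
where the special points of the components are distinct. -/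
def FinEx : Prop :=
  ∀ (T : H93.RB) (S : H93.Mk → Bool), (∀ x, S x = true → (T.pl x).isRight = true) →
    ∀ (m : ℕ) (U : Set (Fin m → ℂ)) (φ : (Fin m → ℂ) → (rg T).Sp), IsOpen U →
    (∀ b ∈ U, AnalyticAt ℂ φ b) → (∀ b ∈ U, φ b ∈ (rg T).dom S) →
    (∀ b ∈ U, ∀ g : (rg T).Gap, (φ b).1 g = 0 ↔ (g.2 : ℕ) ∈ T.B g.1) →
    ∀ b ∈ U, ∀ f : Fin 3 → ℕ, (∀ k, f k + 1 = (T.B k).card) →
    (∀ y y' : (EC f × Bool) ⊕ H93.Mk, gr f (fun x => loc f (T.comp x)) y =
      gr f (fun x => loc f (T.comp x)) y' →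
      zz T S Subtype.val (φ b) y = zz T S Subtype.val (φ b) y' → y = y') →
    ∃ C' : Fam L 17, H888.Real (k17 (rg T)) (rg T).psi S ((rg T).sht S) C' ∧
      (k17 (rg T)).symm (φ b) ∈ C'.B ∧
      ∃ (U' : Set (Fin m → ℂ)) (g' : VC f → OnePoint ℂ → (Fin m → ℂ) → C'.X),
        IsOpen U' ∧ b ∈ U' ∧ U' ⊆ U ∧
        Norm C' U' (fun b => (k17 (rg T)).symm (φ b)) (gr f fun x => loc f (T.comp x))
          (Sum.elim (zE f fun k _ => (ctr k : OnePoint ℂ)) fun x b => mz T S (φ b) x) g'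

variable {V E : Type} {m : ℕ}

/-- The special points of the components are distinct for every graph of the region. -/
theorem sep_of {T : H93.RB} {S : H93.Mk → Bool}
    {h : (E × Bool) ⊕ H93.Mk → V} {nm : V → Bool ⊕ (Fin 3 × ℕ)} {ge : E → Fin 3 × ℕ}
    (H : Lab T h nm ge) {c : Coord h m} {φ : (Fin m → ℂ) → (rg T).Sp}
    {A : V → (Fin m → ℂ) → Matrix (Fin 2) (Fin 2) ℂ} {b : Fin m → ℂ} (hb : b ∈ c.base)
    (hz : ∀ y, pt b (c.c y) = mob (A (h y) b) (zz T S ge (φ b) y))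
    {V' E' : Type} {h' : (E' × Bool) ⊕ H93.Mk → V'} {nm' : V' → Bool ⊕ (Fin 3 × ℕ)}
    {ge' : E' → Fin 3 × ℕ} (H' : Lab T h' nm' ge') (hs' : Function.Surjective h')
    (y y' : (E' × Bool) ⊕ H93.Mk) (e : h' y = h' y')
    (ez : zz T S ge' (φ b) y = zz T S ge' (φ b) y') : y = y' := by
  obtain ⟨pV, pE, h1, h2, h3⟩ := lab_iso H' H hs' (surj_of_coord c)
  set q := Sum.map (pE.prodCongr (Equiv.refl Bool)) (Equiv.refl H93.Mk) with hq
  have hinj : Function.Injective q :=
    (pE.prodCongr (Equiv.refl Bool)).injective.sumMap (Equiv.refl H93.Mk).injective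
  have hzz : ∀ y, zz T S ge (φ b) (q y) = zz T S ge' (φ b) y := by
    rintro (⟨e, s⟩ | x)
    · change H728.hz T (ge (pE e)).1 (ge (pE e)).2 s = H728.hz T (ge' e).1 (ge' e).2 s
      rw [h2]
    · rfl
  refine hinj (hb _ _ ?_ ?_)
  · rw [← h3, ← h3, e]
  · rw [hz, hz, ← h3, ← h3, e, hzz, hzz, ez]

/-- **Composition.** -/
theorem ofAt_of {F : H503.Form16} {FS : (L → Bool) → H95.E → (L → ℂ) → Alt 16 H95.E}
    (hF : IsClosedForm L 16 F)
    (hloc : ∀ R S, H888.Far R S → ∀ C : Fam L 17, H888.Real (k17 R) R.psi S (R.sht S) C →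
      H450.LocFam F FS R S C) (hex : FinEx) : H450.OfAt F FS := by
  intro T S hS V E _ _ h nm ge H m c C hCs hC U φ A hU hUB hφ hdom hgap hA hd hz b hb
  obtain ⟨f, hf⟩ : ∃ f : Fin 3 → ℕ, ∀ k, f k + 1 = (T.B k).card :=
    ⟨fun k => (T.B k).card - 1, fun k => by
      have := card_pos' T k
      simp only
      omega⟩
  obtain ⟨C', hR, hbC, U', g', hU', hbU', hUU, N⟩ := hex T S hS m U φ hU hφ hdom hgap b hb f hf
    (sep_of H (hUB hb) (hz b hb) (lab_end hf) (gr_surj _))
  refine ⟨C', hloc (rg T) S hS C' hR, hbC, ?_⟩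
  have N' : Norm C' U' (fun b => (k17 (rg T)).symm (φ b)) (gr f fun x => loc f (T.comp x))
      (fun y b => zz T S Subtype.val (φ b) y) g' := by
    have e : (fun (y : (EC f × Bool) ⊕ H93.Mk) b => zz T S Subtype.val (φ b) y) =
        Sum.elim (zE f fun k _ => (ctr k : OnePoint ℂ)) fun x b => mz T S (φ b) x := by
      funext y b
      exact zz_end hf S φ y b
    rw [e]
    exact N
  exact link H hCs hC hUB hA hd hz (lab_end hf) (gr_surj _) hR.stable hU' hUU N' hF b hbU'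

end Vale.Agent.P273.H395

end
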