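import Vale.Agent.P273.H395.Comp3
import Vale.Agent.P273.H591.StartEx

/-!
**Every closed form on the families of stable curves has a wall** (no hypothesis).
-/

noncomputable section

namespace Vale.Agent.P273.H395

open H95 H183

/-- Final families exist at the points of the open strata. -/
theorem finEx : FinEx := finEx_of_start H591.startEx

/-- The local families of the regions near the strata. -/
theorem ofAt {F : H503.Form16} (hF : IsClosedForm L 16 F) : H450.OfAt F (H888.FS F) :=
  ofAt_of_start hF H591.startEx

/-- **Every closed form on the families has a wall.** -/
theorem extAll :
    ∀ F : H503.Form16, IsClosedForm H503.Lg14 (8 * 2) F → ∃ X : Ext, H728.ExtOf F X :=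
  extAll_of_start H591.startEx

end Vale.Agent.P273.H395

end
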