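import Vale.Agent.P273.H395.Res
import Vale.Agent.P273.H188.NormRe
import Vale.Agent.P273.H837.Strong
import Vale.Agent.P273.H728.ExtOf

/-!
The value of a natural form on the family of a stratum is the pullback of its value on any family
with the same normalisation data.
-/

noncomputable section

namespace Vale.Agent.P273.H395

open Set Filter H183 H837 H948 H949 H728 Topology
open scoped Topology

variable {L V E : Type} {m n : ℕ}

/-- **The link.** -/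
theorem F_of_norm [Finite V] {h : (E × Bool) ⊕ L → V} {c : Coord h m} (hs : HasStrong c)
    {C : Fam L m} (hCs : C.IsStable) (hC : c.IsGlued C) {D : Fam L n} (hD : D.IsStable)
    {U : Set (Fin m → ℂ)} (hU : IsOpen U) (hUB : U ⊆ c.base) {φ : (Fin m → ℂ) → Fin n → ℂ}
    {z : (E × Bool) ⊕ L → (Fin m → ℂ) → OnePoint ℂ} {g : V → OnePoint ℂ → (Fin m → ℂ) → D.X}
    (N : Norm D U φ h z g) {A : V → (Fin m → ℂ) → Matrix (Fin 2) (Fin 2) ℂ}
    (hA : ∀ b ∈ U, ∀ v i j, AnalyticAt ℂ (fun b => A v b i j) b)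
    (hd : ∀ b ∈ U, ∀ v, (A v b).det ≠ 0)
    (hz : ∀ b ∈ U, ∀ y, pt b (c.c y) = mob (A (h y) b) (z y b)) {k : ℕ}
    {F : ∀ m, Fam L m → (Fin m → ℂ) → (Fin m → ℂ) [⋀^Fin k]→L[ℝ] ℝ} (hF : IsClosedForm L k F) :
    ∀ b ∈ U, F m C b = (F n D (φ b)).compContinuousLinearMap (fderiv ℝ φ b) := by
  intro b hb
  obtain ⟨T, gT, hT, hTB, hTn, hTh⟩ := hs
  obtain ⟨gC, hgC⟩ := Norm.of_isGlued hC
  have hTn' : Norm T T.B id h (fun y b => pt b (c.c y)) gT := hTB.symm ▸ hTn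
  -- the two families over the stratum
  have h1 : F m T b = F m C b := by
    have h2 := eq_pullback (m := m) (m' := m) hT hCs hTn'
      (hTB.symm ▸ hgC : Norm C T.B id h (fun y b => pt b (c.c y)) gC) hTh hF b
      (hTB.symm ▸ hUB hb)
    rw [h2]
    simp only [id, fderiv_id]
    ext x
    rfl
  -- restriction to `U`
  have hUT : U ⊆ (pf T hT).B := fun b hb => by
    change b ∈ T.B
    rw [hTB]; exact hUB hb
  obtain ⟨x₀⟩ := exists_pt T hT hU hUT ⟨b, hb⟩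
  obtain ⟨hR, hRs⟩ := res_norm (hC := hT) (hB' := hU) (hB := hUT) (x₀ := x₀) hTn' hTh
  have h3 := res_form (hC := hT) (hB' := hU) (hB := hUT) (x₀ := x₀) hF hb
  have h4 := eq_pullback (T := res T hT hU hUT x₀) res_stable hD hR
    (Norm.mob N hU hA hd (fun b hb y => hz b hb y)) hRs hF b hb
  rw [← h1, ← h3, h4]

/-- Two graphs with the same labels are isomorphic. -/
theorem lab_iso {V' E' : Type} {T : H93.RB} {h : (E × Bool) ⊕ H93.Mk → V}
    {nm : V → Bool ⊕ (Fin 3 × ℕ)} {ge : E → Fin 3 × ℕ} (H : Lab T h nm ge)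
    {h' : (E' × Bool) ⊕ H93.Mk → V'} {nm' : V' → Bool ⊕ (Fin 3 × ℕ)} {ge' : E' → Fin 3 × ℕ}
    (H' : Lab T h' nm' ge') (hs : Function.Surjective h) (hs' : Function.Surjective h') :
    ∃ (pV : V ≃ V') (pE : E ≃ E'), (∀ v, nm' (pV v) = nm v) ∧ (∀ e, ge' (pE e) = ge e) ∧
      ∀ y, pV (h y) = h' (Sum.map (pE.prodCongr (Equiv.refl Bool)) (Equiv.refl H93.Mk) y) := by
  have e1 : ∀ e, ∃ e', ge' e' = ge e := fun e => (H'.ge_ran _ _).2 ((H.ge_ran _ _).1 ⟨e, rfl⟩)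
  have e2 : ∀ e', ∃ e, ge e = ge' e' := fun e => (H.ge_ran _ _).2 ((H'.ge_ran _ _).1 ⟨e, rfl⟩)
  choose f hf using e1
  choose f' hf' using e2
  let pE : E ≃ E' := ⟨f, f', fun e => H.ge_inj (by rw [hf', hf]), fun e => H'.ge_inj
    (by rw [hf, hf'])⟩
  have hp : ∀ y, nm' (h' (Sum.map (pE.prodCongr (Equiv.refl Bool)) (Equiv.refl H93.Mk) y)) =
      nm (h y) := by
    rintro (⟨e, s⟩ | x)
    · change nm' (h' (Sum.inl (f e, s))) = _
      rw [H'.edge, H.edge, hf]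
    · change nm' (h' (Sum.inr x)) = _
      rw [H'.leg, H.leg]
  have hp' : ∀ y, nm (h (Sum.map (pE.symm.prodCongr (Equiv.refl Bool)) (Equiv.refl H93.Mk) y)) =
      nm' (h' y) := by
    rintro (⟨e, s⟩ | x)
    · change nm (h (Sum.inl (f' e, s))) = _
      rw [H'.edge, H.edge, hf']
    · change nm (h (Sum.inr x)) = _
      rw [H'.leg, H.leg]
  have v1 : ∀ v, ∃ v', nm' v' = nm v := by
    intro v
    obtain ⟨y, rfl⟩ := hs v
    exact ⟨_, hp y⟩
  have v2 : ∀ v', ∃ v, nm v = nm' v' := by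
    intro v
    obtain ⟨y, rfl⟩ := hs' v
    exact ⟨_, hp' y⟩
  choose q hq using v1
  choose q' hq' using v2
  let pV : V ≃ V' := ⟨q, q', fun e => H.nm_inj (by rw [hq', hq]), fun e => H'.nm_inj
    (by rw [hq, hq'])⟩
  refine ⟨pV, pE, hq, hf, fun y => H'.nm_inj ?_⟩
  rw [hp]
  exact hq _

/-- A graph of a region with gaps has no loops. -/
theorem lab_no_loop {T : H93.RB} {h : (E × Bool) ⊕ H93.Mk → V} {nm : V → Bool ⊕ (Fin 3 × ℕ)}
    {ge : E → Fin 3 × ℕ} (H : Lab T h nm ge) (y : E × Bool) :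
    h (Sum.inl (H768.fl y)) ≠ h (Sum.inl y) := by
  obtain ⟨e, s⟩ := y
  intro e1
  have e2 := congrArg nm e1
  have e3 : nm (h (Sum.inl (e, !s))) = nm (h (Sum.inl (e, s))) := e2
  rw [H.edge, H.edge] at e3
  have hi : (ge e).2 < (T.B (ge e).1).card := (H.ge_ran _ _).1 ⟨e, rfl⟩
  have h4 : lb T (ge e).1 (ge e).2 ≠ lb T (ge e).1 ((ge e).2 + 1) := by
    unfold lb
    by_cases h0 : (ge e).2 = 0
    · rw [if_pos h0, if_neg (Nat.succ_ne_zero _)]
      split_ifs <;> simp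
    · rw [if_neg h0, if_neg hi.ne, if_neg (Nat.succ_ne_zero _)]
      split_ifs
      · simp
      · intro e4
        have := congrArg Prod.snd (Sum.inr_injective e4)
        simp at this
  cases s
  · exact h4 e3
  · exact h4 e3.symm

theorem surj_of_coord {h : (E × Bool) ⊕ L → V} (c : Coord h m) : Function.Surjective h := by
  intro v
  obtain ⟨y, ⟨hy, -⟩, -⟩ := c.const v 0
  exact ⟨y, hy⟩

/-- **The value of `F` on a stratum from normalisation data over any graph with the same labels.**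
The hypotheses up to `hz` are those of `ExtOf`. -/
theorem link [Finite V] [Finite E] {T : H93.RB} {S : H93.Mk → Bool}
    {h : (E × Bool) ⊕ H93.Mk → V} {nm : V → Bool ⊕ (Fin 3 × ℕ)} {ge : E → Fin 3 × ℕ}
    (H : Lab T h nm ge) {c : Coord h m} {C : Fam H93.Mk m} (hCs : C.IsStable) (hC : c.IsGlued C)
    {U : Set (Fin m → ℂ)} {φ : (Fin m → ℂ) → (rg T).Sp}
    {A : V → (Fin m → ℂ) → Matrix (Fin 2) (Fin 2) ℂ} (hUB : U ⊆ c.base)
    (hA : ∀ b ∈ U, ∀ v i j, AnalyticAt ℂ (fun b => A v b i j) b)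
    (hd : ∀ b ∈ U, ∀ v, (A v b).det ≠ 0)
    (hz : ∀ b ∈ U, ∀ y, pt b (c.c y) = mob (A (h y) b) (zz T S ge (φ b) y))
    {V' E' : Type} {h' : (E' × Bool) ⊕ H93.Mk → V'} {nm' : V' → Bool ⊕ (Fin 3 × ℕ)}
    {ge' : E' → Fin 3 × ℕ} (H' : Lab T h' nm' ge') (hs' : Function.Surjective h')
    {D : Fam H93.Mk n} (hD : D.IsStable) {ψ : (Fin m → ℂ) → Fin n → ℂ} {U' : Set (Fin m → ℂ)}
    (hU' : IsOpen U') (hUU : U' ⊆ U) {g' : V' → OnePoint ℂ → (Fin m → ℂ) → D.X}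
    (N : Norm D U' ψ h' (fun y b => zz T S ge' (φ b) y) g') {k : ℕ}
    {F : ∀ m, Fam H93.Mk m → (Fin m → ℂ) → (Fin m → ℂ) [⋀^Fin k]→L[ℝ] ℝ}
    (hF : IsClosedForm H93.Mk k F) :
    ∀ b ∈ U', F m C b = (F n D (ψ b)).compContinuousLinearMap (fderiv ℝ ψ b) := by
  obtain ⟨pV, pE, h1, h2, h3⟩ := lab_iso H H' (surj_of_coord c) hs'
  have N' : Norm (H188.rel (Equiv.refl H93.Mk) D) U' ψ h (fun y b => zz T S ge (φ b) y)
      (fun v w b => g' (pV v) w b) := by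
    refine H188.Norm.reindex N pV (Equiv.refl _) (pE.prodCongr (Equiv.refl Bool))
      (fun e s => rfl) h3 fun y b _ => ?_
    rcases y with ⟨e, s⟩ | x
    · change H728.hz T (ge e).1 (ge e).2 s = H728.hz T (ge' (pE e)).1 (ge' (pE e)).2 s
      rw [h2]
    · rfl
  exact F_of_norm (hasStrong c (lab_no_loop H) hCs hC) hCs hC (D := D) hD hU' (hUU.trans hUB) N'
    (fun b hb => hA b (hUU hb)) (fun b hb => hd b (hUU hb)) (fun b hb => hz b (hUU hb)) hF

end Vale.Agent.P273.H395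

end
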