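import Vale.Agent.P273.H395.Norm
import Vale.Agent.P273.H837.Mob

/-!
Change of the coordinates on the components of normalisation data by Moebius maps.
-/

noncomputable section

namespace Vale.Agent.P273.H395

open Set Sum Filter H183 H837 Topology
open scoped Topology

variable {L V E : Type} {m m' : ℕ}

/-- The inverse Moebius map. -/
def ad (M : Matrix (Fin 2) (Fin 2) ℂ) : Matrix (Fin 2) (Fin 2) ℂ :=
  !![M 1 1, -M 0 1; -M 1 0, M 0 0]

theorem det_ad (M : Matrix (Fin 2) (Fin 2) ℂ) : (ad M).det = M.det := by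
  simp only [ad, Matrix.det_fin_two, Matrix.of_apply, Matrix.cons_val', Matrix.cons_val_zero,
    Matrix.cons_val_one]
  ring

theorem act_ad (M : Matrix (Fin 2) (Fin 2) ℂ) (u : ℂ × ℂ) :
    H837.act (ad M) (H837.act M u) = (M.det * u.1, M.det * u.2) := by
  simp only [ad, H837.act, Matrix.det_fin_two, Matrix.of_apply, Matrix.cons_val',
    Matrix.cons_val_zero, Matrix.cons_val_one]
  ext <;> simp <;> ring

theorem act_ad' (M : Matrix (Fin 2) (Fin 2) ℂ) (u : ℂ × ℂ) :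
    H837.act M (H837.act (ad M) u) = (M.det * u.1, M.det * u.2) := by
  simp only [ad, H837.act, Matrix.det_fin_two, Matrix.of_apply, Matrix.cons_val',
    Matrix.cons_val_zero, Matrix.cons_val_one]
  ext <;> simp <;> ring

theorem mob_ad {M : Matrix (Fin 2) (Fin 2) ℂ} (hM : M.det ≠ 0) (z : OnePoint ℂ) :
    mob (ad M) (mob M z) = z := by
  have h1 : mob M z = H837.proj (H837.act M (lft z)) := rfl
  rw [h1, mob_proj (by rw [det_ad]; exact hM) (act_ne hM (lft_ne z)), act_ad, proj_smul hM,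
    proj_lft]

theorem mob_ad' {M : Matrix (Fin 2) (Fin 2) ℂ} (hM : M.det ≠ 0) (z : OnePoint ℂ) :
    mob M (mob (ad M) z) = z := by
  have h1 : mob (ad M) z = H837.proj (H837.act (ad M) (lft z)) := rfl
  rw [h1, mob_proj hM (act_ne (by rw [det_ad]; exact hM) (lft_ne z)), act_ad', proj_smul hM,
    proj_lft]

theorem continuousAt_mob {A : (Fin m → ℂ) → Matrix (Fin 2) (Fin 2) ℂ} {U : Set (Fin m → ℂ)}
    (hU : IsOpen U) {b : Fin m → ℂ} (hb : b ∈ U)
    (hA : ∀ i j, AnalyticAt ℂ (fun b => A b i j) b) (hd : ∀ b ∈ U, (A b).det ≠ 0)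
    (w : OnePoint ℂ) :
    ContinuousAt (fun p : OnePoint ℂ × (Fin m → ℂ) => mob (A p.2) p.1) (w, b) := by
  obtain ⟨u0, hu0, rfl⟩ := proj_surj w
  rw [continuousAt_iff_proj (F := fun w b => mob (A b) w) hu0]
  have h2 : ContinuousAt (fun p : (ℂ × ℂ) × (Fin m → ℂ) => H837.act (A p.2) p.1) (u0, b) := by
    have hAc : ∀ j k, ContinuousAt (fun p : (ℂ × ℂ) × (Fin m → ℂ) => A p.2 j k) (u0, b) :=
      fun j k => ContinuousAt.comp (x := (u0, b)) (f := Prod.snd)
        (g := fun b => A b j k) (hA j k).continuousAt continuousAt_snd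
    have hf1 : ContinuousAt (fun p : (ℂ × ℂ) × (Fin m → ℂ) => p.1.1) (u0, b) := by fun_prop
    have hf2 : ContinuousAt (fun p : (ℂ × ℂ) × (Fin m → ℂ) => p.1.2) (u0, b) := by fun_prop
    unfold H837.act
    exact (((hAc 0 0).mul hf1).add ((hAc 0 1).mul hf2)).prodMk
      (((hAc 1 0).mul hf1).add ((hAc 1 1).mul hf2))
  have h3 : ContinuousAt (fun p : (ℂ × ℂ) × (Fin m → ℂ) =>
      H837.proj (H837.act (A p.2) p.1)) (u0, b) :=
    ContinuousAt.comp (x := (u0, b)) (f := fun p : (ℂ × ℂ) × (Fin m → ℂ) =>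
      H837.act (A p.2) p.1) (g := H837.proj) (continuousAt_proj (act_ne (hd b hb) hu0)) h2
  refine h3.congr ?_
  have h4 : ∀ᶠ p : (ℂ × ℂ) × (Fin m → ℂ) in 𝓝 (u0, b), p.1 ≠ 0 ∧ p.2 ∈ U :=
    (Filter.eventually_of_mem ((continuous_fst.isOpen_preimage _ isOpen_ne).mem_nhds
      (x := (u0, b)) hu0) fun _ h => h).and (Filter.eventually_of_mem
      ((continuous_snd.isOpen_preimage _ hU).mem_nhds (x := (u0, b)) hb) fun _ h => h)
  filter_upwards [h4] with p hp
  exact (mob_proj (hd _ hp.2) hp.1).symm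

theorem hol1_mob {f : OnePoint ℂ → (Fin m → ℂ) → ℂ} {A : (Fin m → ℂ) → Matrix (Fin 2) (Fin 2) ℂ}
    {U : Set (Fin m → ℂ)} (hU : IsOpen U) {b : Fin m → ℂ} (hb : b ∈ U)
    (hA : ∀ i j, AnalyticAt ℂ (fun b => A b i j) b) (hd : ∀ b ∈ U, (A b).det ≠ 0)
    {w : OnePoint ℂ} (hf : Hol1 f (mob (A b) w) b) : Hol1 (fun w b => f (mob (A b) w) b) w b := by
  obtain ⟨u0, hu0, rfl⟩ := proj_surj w
  rw [mob_proj (hd b hb) hu0, hol1_iff_proj (act_ne (hd b hb) hu0)] at hf
  rw [hol1_iff_proj hu0]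
  have hAc : ∀ j k, AnalyticAt ℂ (fun p : (ℂ × ℂ) × (Fin m → ℂ) => A p.2 j k) (u0, b) :=
    fun j k => AnalyticAt.comp (x := (u0, b)) (f := Prod.snd)
      (g := fun b => A b j k) (hA j k) analyticAt_snd
  have hf1 : AnalyticAt ℂ (fun p : (ℂ × ℂ) × (Fin m → ℂ) => p.1.1) (u0, b) :=
    ((ContinuousLinearMap.fst ℂ ℂ ℂ).comp
        (ContinuousLinearMap.fst ℂ (ℂ × ℂ) (Fin m → ℂ))).analyticAt (u0, b)
  have hf2 : AnalyticAt ℂ (fun p : (ℂ × ℂ) × (Fin m → ℂ) => p.1.2) (u0, b) :=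
    ((ContinuousLinearMap.snd ℂ ℂ ℂ).comp
        (ContinuousLinearMap.fst ℂ (ℂ × ℂ) (Fin m → ℂ))).analyticAt (u0, b)
  have h2 : AnalyticAt ℂ (fun p : (ℂ × ℂ) × (Fin m → ℂ) => (H837.act (A p.2) p.1, p.2))
      (u0, b) := by
    unfold H837.act
    exact ((((hAc 0 0).mul hf1).add ((hAc 0 1).mul hf2)).prod
          (((hAc 1 0).mul hf1).add ((hAc 1 1).mul hf2))).prod analyticAt_snd
  have h3 := AnalyticAt.comp (x := (u0, b))
    (f := fun p : (ℂ × ℂ) × (Fin m → ℂ) => (H837.act (A p.2) p.1, p.2))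
    (g := fun p : (ℂ × ℂ) × (Fin m → ℂ) => f (H837.proj p.1) p.2) hf h2
  refine h3.congr ?_
  have h4 : ∀ᶠ p : (ℂ × ℂ) × (Fin m → ℂ) in 𝓝 (u0, b), p.1 ≠ 0 ∧ p.2 ∈ U :=
    (Filter.eventually_of_mem ((continuous_fst.isOpen_preimage _ isOpen_ne).mem_nhds
      (x := (u0, b)) hu0) fun _ h => h).and (Filter.eventually_of_mem
      ((continuous_snd.isOpen_preimage _ hU).mem_nhds (x := (u0, b)) hb) fun _ h => h)
  filter_upwards [h4] with q hq
  simp only [Function.comp]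
  rw [mob_proj (hd _ hq.2) hq.1]

/-- **Change of the coordinates on the components.** -/
theorem Norm.mob {C : Fam L m} {U : Set (Fin m' → ℂ)} {φ : (Fin m' → ℂ) → Fin m → ℂ}
    {h : (E × Bool) ⊕ L → V} {z : (E × Bool) ⊕ L → (Fin m' → ℂ) → OnePoint ℂ}
    {g : V → OnePoint ℂ → (Fin m' → ℂ) → C.X} (hN : Norm C U φ h z g) (hU : IsOpen U)
    {A : V → (Fin m' → ℂ) → Matrix (Fin 2) (Fin 2) ℂ}
    (hA : ∀ b ∈ U, ∀ v i j, AnalyticAt ℂ (fun b => A v b i j) b)
    (hd : ∀ b ∈ U, ∀ v, (A v b).det ≠ 0)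
    {z' : (E × Bool) ⊕ L → (Fin m' → ℂ) → OnePoint ℂ}
    (hz : ∀ b ∈ U, ∀ y, z' y b = H837.mob (A (h y) b) (z y b)) :
    Norm C U φ h z' (fun v w b => g v (H837.mob (ad (A v b)) w) b) := by
  have hd' : ∀ v, ∀ b ∈ U, (ad (A v b)).det ≠ 0 := fun v b hb => by
    rw [det_ad]; exact hd b hb v
  have hA' : ∀ v, ∀ b ∈ U, ∀ i j, AnalyticAt ℂ (fun b => ad (A v b) i j) b := by
    intro v b hb i j
    fin_cases i <;> fin_cases j
    · exact hA b hb v 1 1
    · exact (hA b hb v 0 1).neg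
    · exact (hA b hb v 1 0).neg
    · exact hA b hb v 0 0
  have hmz : ∀ b ∈ U, ∀ y, H837.mob (ad (A (h y) b)) (z' y b) = z y b := fun b hb y => by
    rw [hz b hb, mob_ad (hd b hb _)]
  refine ⟨hN.an, hN.mem, fun v => ?_, fun b hb v w => hN.proj b hb v _, fun b hb p hp => ?_,
    fun b hb v w v' w' => ?_, fun b hb v w f hf => ?_, fun b hb x => ?_⟩
  · rintro ⟨w, b⟩ ⟨-, hb⟩
    refine ContinuousAt.continuousWithinAt ?_
    have h1 : ContinuousAt (fun p : OnePoint ℂ × (Fin m' → ℂ) =>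
        (H837.mob (ad (A v p.2)) p.1, p.2)) (w, b) :=
      (continuousAt_mob (A := fun b => ad (A v b)) hU hb (hA' v b hb) (hd' v) w).prodMk
        continuousAt_snd
    have h2 : ContinuousAt (fun p : OnePoint ℂ × (Fin m' → ℂ) => g v p.1 p.2)
        (H837.mob (ad (A v b)) w, b) :=
      (hN.cont v).continuousAt ((isOpen_univ.prod hU).mem_nhds ⟨mem_univ _, hb⟩)
    exact ContinuousAt.comp (f := fun p : OnePoint ℂ × (Fin m' → ℂ) =>
        (H837.mob (ad (A v p.2)) p.1, p.2)) (g := fun p : OnePoint ℂ × (Fin m' → ℂ) =>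
        g v p.1 p.2) h2 h1
  · obtain ⟨v, w, e⟩ := hN.onto b hb p hp
    refine ⟨v, H837.mob (A v b) w, ?_⟩
    rw [mob_ad (hd b hb v)]
    exact e
  · rw [hN.ident b hb]
    have hiff : ∀ (y : (E × Bool) ⊕ L) (v : V) (w : OnePoint ℂ),
        (v = h y ∧ H837.mob (ad (A v b)) w = z y b) ↔ (v = h y ∧ w = z' y b) := by
      intro y v w
      refine and_congr_right fun hv => ?_
      subst hv
      constructor
      · intro e
        rw [hz b hb, ← e, mob_ad' (hd b hb _)]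
      · rintro rfl
        exact hmz b hb y
    refine or_congr (and_congr_right fun hv => ?_) ?_
    · subst hv
      constructor
      · intro e
        have := congrArg (H837.mob (A v b)) e
        rwa [mob_ad' (hd b hb v), mob_ad' (hd b hb v)] at this
      · rintro rfl
        rfl
    · refine exists_congr fun e => exists_congr fun s => ?_
      rw [hiff, hiff]
  · have h1 := hN.hol b hb v _ f hf
    exact hol1_mob (f := fun w b => f (g v w b)) (A := fun b => ad (A v b)) hU hb (hA' v b hb)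
      (hd' v) h1
  · rw [hN.mark b hb x, hmz b hb]

end Vale.Agent.P273.H395

end
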