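import Vale.Agent.P273.H395.NormM3

/-!
The orientation of the branches at a node, from a contraction to a surface with known branches.
-/

noncomputable section

namespace Vale.Agent.P273.H395

open Set Filter Topology H948 H837 H183 H591

variable {L V E : Type} {m m' : ℕ}

/-- The orientation of the branches at a node of `S` is determined by the function `v₀ ∘ r`. -/
theorem br_of_or {S X₀ : Surf m} {U : Set (Fin m' → ℂ)} {φ : (Fin m' → ℂ) → Fin m → ℂ}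
    {h : E × Bool → V} {z : E × Bool → (Fin m' → ℂ) → OnePoint ℂ}
    {g : V → OnePoint ℂ → (Fin m' → ℂ) → S.X} (G : NormS S U φ h z g) (hU : IsOpen U)
    {Uc : Set S.X} {u v : S.X → ℂ} {t : (Fin m → ℂ) → ℂ} (hS : IsModel S.π S.hol Uc u v t)
    {r : S.X → X₀.X} {v₀ : X₀.X → ℂ} (hv : ∀ x ∈ Uc, v x = v₀ (r x)) (e : E)
    (hn : ∀ b ∈ U, g (h (e, true)) (z (e, true) b) b ∈ Uc ∧
      u (g (h (e, true)) (z (e, true) b) b) = 0)
    (ht : ∀ b ∈ U, t (φ b) = 0)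
    (hT : ∀ b ∈ U, ∀ᶠ p : OnePoint ℂ × (Fin m' → ℂ) in 𝓝 (z (e, true) b, b),
      v₀ (r (g (h (e, true)) p.1 p.2)) = 0)
    (hF : ∀ b ∈ U, ∀ᶠ p : OnePoint ℂ × (Fin m' → ℂ) in 𝓝 (z (e, false) b, b),
      p.1 ≠ z (e, false) p.2 → v₀ (r (g (h (e, false)) p.1 p.2)) ≠ 0) :
    Br U h z g e u v := by
  have gca : ∀ v w b, b ∈ U →
      ContinuousAt (fun p : OnePoint ℂ × (Fin m' → ℂ) => g v p.1 p.2) (w, b) := fun v w b hb =>
    (G.cont v).continuousAt ((isOpen_univ.prod hU).mem_nhds ⟨mem_univ _, hb⟩)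
  have h0 : ∀ b ∈ U, g (h (e, false)) (z (e, false) b) b = g (h (e, true)) (z (e, true) b) b :=
    fun b hb => (G.ident b hb _ _ _ _).2 (Or.inr ⟨e, false, ⟨rfl, rfl⟩, rfl, rfl⟩)
  intro b hb
  constructor
  · have h1 : ∀ᶠ p : OnePoint ℂ × (Fin m' → ℂ) in 𝓝 (z (e, true) b, b),
        g (h (e, true)) p.1 p.2 ∈ Uc :=
      (gca _ _ b hb).eventually (hS.isOpen.mem_nhds (hn b hb).1)
    filter_upwards [hT b hb, h1] with p hp hp'
    rw [hv _ hp']; exact hp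
  · have h1 : ∀ᶠ p : OnePoint ℂ × (Fin m' → ℂ) in 𝓝 (z (e, false) b, b),
        g (h (e, false)) p.1 p.2 ∈ Uc := by
      refine (gca _ _ b hb).eventually (hS.isOpen.mem_nhds ?_)
      change g (h (e, false)) (z (e, false) b) b ∈ Uc
      rw [h0 b hb]; exact (hn b hb).1
    have h2 : ∀ᶠ p : OnePoint ℂ × (Fin m' → ℂ) in 𝓝 (z (e, false) b, b), p.2 ∈ U :=
      continuousAt_snd.eventually (hU.mem_nhds hb)
    filter_upwards [hF b hb, h1, h2] with p hp hp' hpU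
    by_cases hw : p.1 = z (e, false) p.2
    · rw [hw, h0 _ hpU]; exact (hn _ hpU).2
    · have h3 := hS.eqn _ hp'
      rw [G.proj _ hpU, ht _ hpU, hv _ hp'] at h3
      exact (mul_eq_zero.1 h3).resolve_right (hp hw)

/-- The same for normalisation data with labels. -/
theorem NormL.br_of_or {S X₀ : Surf m} {B : Set (Fin m → ℂ)} {s : L → (Fin m → ℂ) → S.X}
    {U : Set (Fin m' → ℂ)} {φ : (Fin m' → ℂ) → Fin m → ℂ}
    {h : (E × Bool) ⊕ L → V} {z : (E × Bool) ⊕ L → (Fin m' → ℂ) → OnePoint ℂ}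
    {g : V → OnePoint ℂ → (Fin m' → ℂ) → S.X} (G : NormL S B s U φ h z g) (hU : IsOpen U)
    {Uc : Set S.X} {u v : S.X → ℂ} {t : (Fin m → ℂ) → ℂ} (hS : IsModel S.π S.hol Uc u v t)
    {r : S.X → X₀.X} {v₀ : X₀.X → ℂ} (hv : ∀ x ∈ Uc, v x = v₀ (r x)) (e : E)
    (hn : ∀ b ∈ U, g (h (Sum.inl (e, true))) (z (Sum.inl (e, true)) b) b ∈ Uc ∧
      u (g (h (Sum.inl (e, true))) (z (Sum.inl (e, true)) b) b) = 0)
    (ht : ∀ b ∈ U, t (φ b) = 0)
    (hT : ∀ b ∈ U, ∀ᶠ p : OnePoint ℂ × (Fin m' → ℂ) in 𝓝 (z (Sum.inl (e, true)) b, b),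
      v₀ (r (g (h (Sum.inl (e, true))) p.1 p.2)) = 0)
    (hF : ∀ b ∈ U, ∀ᶠ p : OnePoint ℂ × (Fin m' → ℂ) in 𝓝 (z (Sum.inl (e, false)) b, b),
      p.1 ≠ z (Sum.inl (e, false)) p.2 → v₀ (r (g (h (Sum.inl (e, false))) p.1 p.2)) ≠ 0) :
    Br U (fun y => h (Sum.inl y)) (fun y => z (Sum.inl y)) g e u v :=
  Vale.Agent.P273.H395.br_of_or G.toS hU hS hv e hn ht hT hF

end Vale.Agent.P273.H395

end
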