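import Vale.Agent.P273.H395.NormMob
import Vale.Agent.P273.H395.NodeNorm
import Vale.Agent.P273.H949.Stable

/-!
Restriction of a stable family to a smaller base.
-/

noncomputable section

namespace Vale.Agent.P273.H395

open Set Filter H183 H837 H948 H949 Topology
open scoped Topology

variable {L V E : Type} {m m' : ℕ}

/-- A stable family as a proper family. -/
def pf (C : Fam L m) (hC : C.IsStable) : PFam m where
  S :=
    { X := C.X
      top := C.top
      t2 := hC.2.1
      π := C.π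
      hol := fun p f => C.hol f p
      model := fun p => by
        obtain ⟨U, x, y, t, hp, hU⟩ := hC.2.2.2.2.1 p
        exact ⟨U, x, y, t, hp, hU.isModel⟩ }
  B := C.B
  openB := hC.1
  mem := hC.2.2.1
  proper := hC.2.2.2.1
  conn := fun b hb => (hC.2.2.2.2.2 b hb).1

theorem pf_sec (C : Fam L m) (hC : C.IsStable) (j : L) :
    IsSec (pf C hC).S (pf C hC).B (C.s j) :=
  fun b hb => ⟨((hC.2.2.2.2.2 b hb).2.1 j).1, ((hC.2.2.2.2.2 b hb).2.1 j).2.1,
    ((hC.2.2.2.2.2 b hb).2.1 j).2.2.1⟩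

theorem pf_smooth (C : Fam L m) (hC : C.IsStable) (j : L) {b : Fin m → ℂ} (hb : b ∈ C.B) :
    (pf C hC).S.SmoothAt (C.s j b) := by
  obtain ⟨U, x, y, t, hp, hU⟩ := hC.2.2.2.2.1 (C.s j b)
  exact ⟨U, x, y, t, hp, hU.isModel, ((hC.2.2.2.2.2 b hb).2.1 j).2.2.2.2 U x y t hU hp⟩

theorem pf_noFld (C : Fam L m) (hC : C.IsStable) {b : Fin m → ℂ} (hb : b ∈ C.B) :
    NoFld (pf C hC).S b {p | ∃ i, C.s i b = p} := by
  intro D hD
  exact (hC.2.2.2.2.2 b hb).2.2 D ((isField_toFam (F := pf C hC) (s := C.s)).2 hD)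

section

variable (C : Fam L m) (hC : C.IsStable) {B' : Set (Fin m → ℂ)} (hB' : IsOpen B')
  (hB : B' ⊆ (pf C hC).B)

/-- The total space over the smaller base is not empty. -/
theorem exists_pt (hne : B'.Nonempty) :
    Nonempty ((pf C hC).shrink B' hB' hB).S.X := by
  obtain ⟨b, hb⟩ := hne
  exact ⟨(((pf C hC).shrink B' hB' hB).conn b hb).nonempty.some⟩

/-- The inclusion. -/
def iR (x : ((pf C hC).shrink B' hB' hB).S.X) : C.X :=
  PFam.inc (pf C hC) (hB' := hB') (hB := hB) x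

/-- The restriction to the smaller base `B'`. -/
def res (x₀ : ((pf C hC).shrink B' hB' hB).S.X) : Fam L m :=
  toFam ((pf C hC).shrink B' hB' hB) fun j => (pf C hC).rsec x₀ (C.s j)

theorem iR_emb : IsOpenEmbedding (iR C hC hB' hB) :=
  PFam.inc_emb (F := pf C hC) (hB' := hB') (hB := hB)

theorem iR_π (x : ((pf C hC).shrink B' hB' hB).S.X) :
    C.π (iR C hC hB' hB x) = ((pf C hC).shrink B' hB' hB).S.π x := rfl

theorem iR_hol (x : ((pf C hC).shrink B' hB' hB).S.X) (f : C.X → ℂ) :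
    ((pf C hC).shrink B' hB' hB).S.hol x (f ∘ iR C hC hB' hB) ↔ C.hol f (iR C hC hB' hB x) :=
  PFam.inc_hol_comp (F := pf C hC) (hB' := hB') (hB := hB) x f

theorem exists_iR {x : C.X} (hx : C.π x ∈ B') : ∃ y, iR C hC hB' hB y = x :=
  PFam.exists_inc (F := pf C hC) (hB' := hB') (hB := hB) (x := x) hx

theorem iR_rsec (x₀ : ((pf C hC).shrink B' hB' hB).S.X) (j : L) {b : Fin m → ℂ} (hb : b ∈ B') :
    iR C hC hB' hB ((pf C hC).rsec x₀ (C.s j) b) = C.s j b :=
  PFam.inc_rsec (F := pf C hC) (hB' := hB') (hB := hB) (pf_sec C hC j) hb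

theorem iR_mem (x : ((pf C hC).shrink B' hB' hB).S.X) : C.π (iR C hC hB' hB x) ∈ B' :=
  ((pf C hC).shrink B' hB' hB).mem x

variable {C hC hB' hB} {x₀ : ((pf C hC).shrink B' hB' hB).S.X}

theorem res_stable : (res C hC hB' hB x₀).IsStable := by
  refine isStable_toFam _ _ (fun j => ?_) (fun j b hb => ?_) (fun i j b hb e => ?_) fun b hb => ?_
  · exact PFam.isSec_rsec (pf_sec C hC j)
  · have hb : b ∈ B' := hb
    refine PFam.smoothAt_inc ?_
    have h1 := iR_rsec C hC hB' hB x₀ j hb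
    have h2 := pf_smooth C hC j (hB hb)
    rw [← h1] at h2
    exact h2
  · have hb : b ∈ B' := hb
    have e' := congrArg (iR C hC hB' hB) e
    rw [iR_rsec C hC hB' hB x₀ i hb, iR_rsec C hC hB' hB x₀ j hb] at e'
    exact (((hC.2.2.2.2.2 b (hB hb)).2.1 i)).2.2.2.1 j e'
  · have hb : b ∈ B' := hb
    refine (pf_noFld C hC (hB hb)).shrink (hB' := hB') (hB := hB) hb ?_
    rintro x ⟨i, e⟩
    refine ⟨i, (iR_emb C hC hB' hB).injective ?_⟩
    rw [iR_rsec C hC hB' hB x₀ i hb]
    exact e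

theorem res_mor : IsMor (res C hC hB' hB x₀) C id (iR C hC hB' hB) := by
  refine ⟨fun b hb => ⟨hB hb, analyticAt_id, ⟨?_, ?_, ?_⟩, fun i => ?_⟩, ?_, fun f p hf => ?_⟩
  · intro p hp
    exact hp
  · intro p _ q _ e
    exact (iR_emb C hC hB' hB).injective e
  · intro p hp
    have hp' : C.π p = b := hp
    obtain ⟨y, rfl⟩ := exists_iR C hC hB' hB (x := p) (by rw [hp']; exact hb)
    exact ⟨y, hp, rfl⟩
  · exact iR_rsec C hC hB' hB x₀ i hb
  · exact (iR_emb C hC hB' hB).continuous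
  · exact (iR_hol C hC hB' hB p f).2 hf

/-- The value of a natural form does not change. -/
theorem res_form {k : ℕ} {F : ∀ m, Fam L m → (Fin m → ℂ) → (Fin m → ℂ) [⋀^Fin k]→L[ℝ] ℝ}
    (hF : IsClosedForm L k F) {b : Fin m → ℂ} (hb : b ∈ B') :
    F m (res C hC hB' hB x₀) b = F m C b := by
  have h1 := hF.2 m m C (res C hC hB' hB x₀) id _ hC res_stable res_mor b hb
  rw [h1]
  simp only [id, fderiv_id]
  ext x
  rfl

open Classical in
/-- The inverse of the inclusion. -/
def toR (x₀ : ((pf C hC).shrink B' hB' hB).S.X) (x : C.X) :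
    ((pf C hC).shrink B' hB' hB).S.X :=
  if h : ∃ y, iR C hC hB' hB y = x then h.choose else x₀

theorem inc_toR {x : C.X} (hx : C.π x ∈ B') : iR C hC hB' hB (toR x₀ x) = x := by
  have h := exists_iR C hC hB' hB hx
  rw [toR, dif_pos h]
  exact h.choose_spec

theorem toR_inc (y : ((pf C hC).shrink B' hB' hB).S.X) : toR x₀ (iR C hC hB' hB y) = y :=
  (iR_emb C hC hB' hB).injective (inc_toR (iR_mem C hC hB' hB y))

/-- Restriction of the normalisation and of the strong form. -/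
theorem res_norm {h : (E × Bool) ⊕ L → V} {z : (E × Bool) ⊕ L → (Fin m → ℂ) → OnePoint ℂ}
    {g : V → OnePoint ℂ → (Fin m → ℂ) → C.X} (hN : Norm C C.B id h z g) (hs : StrongHol C g) :
    Norm (res C hC hB' hB x₀) B' id h z (fun v w b => toR x₀ (g v w b)) ∧
      StrongHol (res C hC hB' hB x₀) fun v w b => toR x₀ (g v w b) := by
  have hπ : ∀ b ∈ B', ∀ v w, C.π (g v w b) = b := fun b hb v w => hN.proj b (hB hb) v w
  have hi : ∀ b ∈ B', ∀ v w, iR C hC hB' hB (toR x₀ (g v w b)) = g v w b :=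
    fun b hb v w => inc_toR (by rw [hπ b hb]; exact hb)
  have hcU : ∀ (w : OnePoint ℂ) (b : Fin m → ℂ), b ∈ B' →
      ∀ᶠ u : OnePoint ℂ × (Fin m → ℂ) in 𝓝 (w, b), u.2 ∈ B' := fun w b hb =>
    continuousAt_snd.eventually (hB'.mem_nhds hb)
  have hct : ∀ v w b, b ∈ B' →
      ContinuousAt (fun u : OnePoint ℂ × (Fin m → ℂ) => toR x₀ (g v u.1 u.2)) (w, b) := by
    intro v w b hb
    have h1 : ContinuousAt (fun u : OnePoint ℂ × (Fin m → ℂ) => g v u.1 u.2) (w, b) :=
      (hN.cont v).continuousAt ((isOpen_univ.prod hC.1).mem_nhds ⟨mem_univ _, hB hb⟩)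
    change Tendsto _ _ _
    rw [(iR_emb C hC hB' hB).isInducing.tendsto_nhds_iff, hi b hb]
    refine Tendsto.congr' ?_ h1
    filter_upwards [hcU w b hb] with u hu
    exact (hi u.2 hu v u.1).symm
  constructor
  · refine ⟨fun b hb => hN.an b (hB hb), fun b hb => hb, fun v => ?_, fun b hb v w => ?_,
      fun b hb p hp => ?_, fun b hb v w v' w' => ?_, fun b hb v w f hf => ?_, fun b hb x => ?_⟩
    · rintro ⟨w, b⟩ ⟨-, hb⟩
      exact (hct v w b hb).continuousWithinAt
    · have h1 := iR_π C hC hB' hB (toR x₀ (g v w b))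
      rw [hi b hb] at h1
      exact h1.symm.trans (hπ b hb v w)
    · have hp' : C.π (iR C hC hB' hB p) = b := hp
      obtain ⟨v, w, e⟩ := hN.onto b (hB hb) (iR C hC hB' hB p) hp'
      exact ⟨v, w, by rw [e]; exact toR_inc p⟩
    · rw [← hN.ident b (hB hb) v w v' w']
      constructor
      · intro e
        have := congrArg (iR C hC hB' hB) e
        rwa [hi b hb, hi b hb] at this
      · intro e
        rw [e]
    · obtain ⟨f', hf', e⟩ := hf
      have hf'' : C.hol f' (iR C hC hB' hB (toR x₀ (g v w b))) := hf'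
      rw [hi b hb] at hf''
      refine hol1_congr (hN.hol b (hB hb) v w f' hf'') ?_
      have e' : ∀ᶠ y in 𝓝 (toR x₀ (g v w b)), f y = f' (iR C hC hB' hB y) := e
      filter_upwards [hcU w b hb, (hct v w b hb).eventually e'] with u hu he
      rw [hi u.2 hu] at he
      exact he.symm
    · have h1 : C.s x b = g (h (Sum.inr x)) (z (Sum.inr x) b) b := hN.mark b (hB hb) x
      refine (iR_emb C hC hB' hB).injective ?_
      rw [hi b hb, ← h1]
      exact iR_rsec C hC hB' hB x₀ x hb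
  · intro p f hf
    have hb : C.π (iR C hC hB' hB p) ∈ B' := iR_mem C hC hB' hB p
    set f' : C.X → ℂ := fun x => f (toR x₀ x) with hf'
    have h1 : C.hol f' (iR C hC hB' hB p) := by
      refine hs _ _ fun v w e => ?_
      refine hf v w ?_
      exact (congrArg (toR x₀) e).trans (toR_inc p)
    have h3 : f' ∘ iR C hC hB' hB = f := by
      funext y
      simp only [hf', Function.comp_apply, toR_inc]
    have h2 := (iR_hol C hC hB' hB p f').2 h1
    rw [h3] at h2
    exact h2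

end

end Vale.Agent.P273.H395

end
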